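import Mathlib

/-! A finite multiplicative Chernoff bound with union bound, phrased as an existence statement. -/

namespace Vale.Agent.Lib.P249

open Finset

theorem exp_mul_le_of_mem_unit (θ u : ℝ) (h0 : 0 ≤ u) (h1 : u ≤ 1) :
    Real.exp (θ * u) ≤ 1 + u * (Real.exp θ - 1) := by
  have h := convexOn_exp.2 (Set.mem_univ (0 : ℝ)) (Set.mem_univ θ) (sub_nonneg.mpr h1) h0
    (by ring)
  simp only [smul_eq_mul, mul_zero, zero_add, Real.exp_zero, mul_one] at h
  rw [mul_comm θ u]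
  linarith

theorem mgf_le {κ : Type*} [Fintype κ] (π : κ → ℝ) (hπ0 : ∀ k, 0 ≤ π k) (hπ1 : ∑ k, π k = 1)
    (Z : κ → ℝ) (B : ℝ) (hB : 0 < B) (hZ0 : ∀ k, 0 ≤ Z k) (hZB : ∀ k, Z k ≤ B)
    (hZ1 : ∑ k, π k * Z k = 1) (θ : ℝ) :
    ∑ k, π k * Real.exp (θ / B * Z k) ≤ Real.exp ((Real.exp θ - 1) / B) := by
  have h1 : ∀ k, π k * Real.exp (θ / B * Z k) ≤ π k + (π k * Z k) * ((Real.exp θ - 1) / B) := by
    intro k
    have hu0 : 0 ≤ Z k / B := div_nonneg (hZ0 k) hB.le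
    have hu1 : Z k / B ≤ 1 := by rw [div_le_one hB]; exact hZB k
    have h := exp_mul_le_of_mem_unit θ (Z k / B) hu0 hu1
    have e1 : θ / B * Z k = θ * (Z k / B) := by ring
    rw [e1]
    calc π k * Real.exp (θ * (Z k / B)) ≤ π k * (1 + Z k / B * (Real.exp θ - 1)) :=
          mul_le_mul_of_nonneg_left h (hπ0 k)
      _ = π k + (π k * Z k) * ((Real.exp θ - 1) / B) := by ring
  calc ∑ k, π k * Real.exp (θ / B * Z k)
      ≤ ∑ k, (π k + (π k * Z k) * ((Real.exp θ - 1) / B)) := Finset.sum_le_sum (fun k _ => h1 k)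
    _ = 1 + (Real.exp θ - 1) / B := by
        rw [Finset.sum_add_distrib, ← Finset.sum_mul, hπ1, hZ1, one_mul]
    _ ≤ Real.exp ((Real.exp θ - 1) / B) := by
        have := Real.add_one_le_exp ((Real.exp θ - 1) / B)
        linarith

theorem tail_sum_le {κ : Type*} [Fintype κ] (π : κ → ℝ) (hπ0 : ∀ k, 0 ≤ π k)
    (hπ1 : ∑ k, π k = 1)
    (Z : κ → ℝ) (B : ℝ) (hB : 0 < B) (hZ0 : ∀ k, 0 ≤ Z k) (hZB : ∀ k, Z k ≤ B)
    (hZ1 : ∑ k, π k * Z k = 1) (θ c : ℝ) (T : ℕ) :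
    ∑ s : Fin T → κ, (∏ t, π (s t)) * Real.exp (θ / B * (∑ t, Z (s t)) - c)
      ≤ Real.exp ((T : ℝ) * ((Real.exp θ - 1) / B) - c) := by
  have h1 : ∀ s : Fin T → κ, (∏ t, π (s t)) * Real.exp (θ / B * (∑ t, Z (s t)) - c)
      = (∏ t, (π (s t) * Real.exp (θ / B * Z (s t)))) * Real.exp (-c) := by
    intro s
    rw [Finset.prod_mul_distrib, ← Real.exp_sum, ← Finset.mul_sum, sub_eq_add_neg, Real.exp_add]
    ring
  simp_rw [h1]
  rw [← Finset.sum_mul, ← Fintype.sum_pow (fun k => π k * Real.exp (θ / B * Z k)) T]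
  have h2 := mgf_le π hπ0 hπ1 Z B hB hZ0 hZB hZ1 θ
  have h3 : 0 ≤ ∑ k, π k * Real.exp (θ / B * Z k) :=
    Finset.sum_nonneg (fun k _ => mul_nonneg (hπ0 k) (Real.exp_pos _).le)
  calc (∑ k, π k * Real.exp (θ / B * Z k)) ^ T * Real.exp (-c)
      ≤ (Real.exp ((Real.exp θ - 1) / B)) ^ T * Real.exp (-c) := by
        apply mul_le_mul_of_nonneg_right _ (Real.exp_pos _).le
        exact pow_le_pow_left₀ h3 h2 T
    _ = Real.exp ((T : ℝ) * ((Real.exp θ - 1) / B) - c) := by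
        rw [← Real.exp_nat_mul, ← Real.exp_add]
        congr 1

theorem exists_good_sample {κ P : Type*} [Fintype κ] [Fintype P]
    (π : κ → ℝ) (hπ0 : ∀ k, 0 ≤ π k) (hπ1 : ∑ k, π k = 1)
    (Z : P → κ → ℝ) (B : ℝ) (hB : 0 < B) (hZ0 : ∀ q k, 0 ≤ Z q k) (hZB : ∀ q k, Z q k ≤ B)
    (hZ1 : ∀ q, ∑ k, π k * Z q k = 1)
    (ε : ℝ) (hε0 : 0 < ε) (hε1 : ε ≤ 1) (T : ℕ)
    (hT : 2 * (Fintype.card P : ℝ) * Real.exp (-(ε ^ 2 * T / (4 * B))) < 1) :
    ∃ s : Fin T → κ, (∀ t, 0 < π (s t)) ∧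
      ∀ q, (1 - ε) * T ≤ ∑ t, Z q (s t) ∧ ∑ t, Z q (s t) ≤ (1 + ε) * T := by
  classical
  set w : (Fin T → κ) → ℝ := fun s => ∏ t, π (s t) with hw
  have hw0 : ∀ s, 0 ≤ w s := fun s => Finset.prod_nonneg (fun t _ => hπ0 _)
  have hw1 : ∑ s, w s = 1 := by
    simp only [hw]
    rw [← Fintype.sum_pow π T, hπ1, one_pow]
  -- the two penalty functions
  set Φ : (Fin T → κ) → ℝ := fun s =>
    ∑ q, (Real.exp ((ε / 2) / B * (∑ t, Z q (s t)) - (ε / 2) / B * ((1 + ε) * T))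
      + Real.exp ((-(ε / 2)) / B * (∑ t, Z q (s t)) - (-(ε / 2)) / B * ((1 - ε) * T))) with hΦ
  have hexp1 : Real.exp (ε / 2) - 1 ≤ ε / 2 + (ε / 2) ^ 2 := by
    have h := Real.abs_exp_sub_one_sub_id_le (x := ε / 2) (by rw [abs_of_pos (by linarith)]; linarith)
    have := (abs_le.mp h).2
    linarith
  have hexp2 : Real.exp (-(ε / 2)) - 1 ≤ -(ε / 2) + (ε / 2) ^ 2 := by
    have h := Real.abs_exp_sub_one_sub_id_le (x := -(ε / 2))
      (by rw [abs_neg, abs_of_pos (by linarith)]; linarith)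
    have := (abs_le.mp h).2
    have e : (-(ε / 2)) ^ 2 = (ε / 2) ^ 2 := by ring
    rw [e] at this
    linarith
  have hT0 : (0 : ℝ) ≤ (T : ℝ) := Nat.cast_nonneg T
  have hbound : ∑ s, w s * Φ s ≤ 2 * (Fintype.card P : ℝ) * Real.exp (-(ε ^ 2 * T / (4 * B))) := by
    have hexpand : ∀ s, w s * Φ s = ∑ q : P,
        (w s * Real.exp ((ε / 2) / B * (∑ t, Z q (s t)) - (ε / 2) / B * ((1 + ε) * T))
        + w s * Real.exp ((-(ε / 2)) / B * (∑ t, Z q (s t)) - (-(ε / 2)) / B * ((1 - ε) * T))) := by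
      intro s
      simp only [hΦ]
      rw [Finset.mul_sum]
      apply Finset.sum_congr rfl
      intro q _
      rw [mul_add]
    simp_rw [hexpand]
    rw [Finset.sum_comm]
    have hq : ∀ q : P, ∑ s : Fin T → κ,
        (w s * Real.exp ((ε / 2) / B * (∑ t, Z q (s t)) - (ε / 2) / B * ((1 + ε) * T))
        + w s * Real.exp ((-(ε / 2)) / B * (∑ t, Z q (s t)) - (-(ε / 2)) / B * ((1 - ε) * T)))
        ≤ 2 * Real.exp (-(ε ^ 2 * T / (4 * B))) := by
      intro q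
      rw [Finset.sum_add_distrib]
      have t1 := tail_sum_le π hπ0 hπ1 (Z q) B hB (hZ0 q) (hZB q) (hZ1 q) (ε / 2)
        ((ε / 2) / B * ((1 + ε) * T)) T
      have t2 := tail_sum_le π hπ0 hπ1 (Z q) B hB (hZ0 q) (hZB q) (hZ1 q) (-(ε / 2))
        ((-(ε / 2)) / B * ((1 - ε) * T)) T
      have e1 : (T : ℝ) * ((Real.exp (ε / 2) - 1) / B) - (ε / 2) / B * ((1 + ε) * T)
          ≤ -(ε ^ 2 * T / (4 * B)) := by
        have : (T : ℝ) * ((Real.exp (ε / 2) - 1) / B) - (ε / 2) / B * ((1 + ε) * T)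
            = (T / B) * ((Real.exp (ε / 2) - 1) - (ε / 2) * (1 + ε)) := by
          field_simp
        rw [this]
        have h2 : -(ε ^ 2 * T / (4 * B)) = (T / B) * (-(ε ^ 2 / 4)) := by
          field_simp
        rw [h2]
        apply mul_le_mul_of_nonneg_left _ (div_nonneg hT0 hB.le)
        nlinarith
      have e2 : (T : ℝ) * ((Real.exp (-(ε / 2)) - 1) / B) - (-(ε / 2)) / B * ((1 - ε) * T)
          ≤ -(ε ^ 2 * T / (4 * B)) := by
        have : (T : ℝ) * ((Real.exp (-(ε / 2)) - 1) / B) - (-(ε / 2)) / B * ((1 - ε) * T)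
            = (T / B) * ((Real.exp (-(ε / 2)) - 1) + (ε / 2) * (1 - ε)) := by
          field_simp
          ring
        rw [this]
        have h2 : -(ε ^ 2 * T / (4 * B)) = (T / B) * (-(ε ^ 2 / 4)) := by
          field_simp
        rw [h2]
        apply mul_le_mul_of_nonneg_left _ (div_nonneg hT0 hB.le)
        nlinarith
      have t1' := le_trans t1 (Real.exp_le_exp.mpr e1)
      have t2' := le_trans t2 (Real.exp_le_exp.mpr e2)
      linarith
    calc _ ≤ ∑ _q : P, 2 * Real.exp (-(ε ^ 2 * T / (4 * B))) := Finset.sum_le_sum (fun q _ => hq q)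
      _ = 2 * (Fintype.card P : ℝ) * Real.exp (-(ε ^ 2 * T / (4 * B))) := by
        rw [Finset.sum_const, Finset.card_univ, nsmul_eq_mul]; ring
  have hlt : ∑ s, w s * Φ s < ∑ s, w s * 1 := by
    simp only [mul_one]
    rw [hw1]
    exact lt_of_le_of_lt hbound hT
  obtain ⟨s, _, hs⟩ := Finset.exists_lt_of_sum_lt hlt
  have hws : 0 < w s := by
    rcases (hw0 s).lt_or_eq with h | h
    · exact h
    · rw [← h] at hs; simp at hs
  have hΦs : Φ s < 1 := by
    exact lt_of_mul_lt_mul_left hs (hw0 s)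
  refine ⟨s, ?_, ?_⟩
  · intro t
    rcases (hπ0 (s t)).lt_or_eq with h | h
    · exact h
    · exfalso
      have : w s = 0 := by
        simp only [hw]
        exact Finset.prod_eq_zero (Finset.mem_univ t) h.symm
      linarith
  · intro q
    have hterm : Real.exp ((ε / 2) / B * (∑ t, Z q (s t)) - (ε / 2) / B * ((1 + ε) * T))
      + Real.exp ((-(ε / 2)) / B * (∑ t, Z q (s t)) - (-(ε / 2)) / B * ((1 - ε) * T)) < 1 := by
      refine lt_of_le_of_lt ?_ hΦs
      simp only [hΦ]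
      exact Finset.single_le_sum
        (f := fun q => Real.exp ((ε / 2) / B * (∑ t, Z q (s t)) - (ε / 2) / B * ((1 + ε) * T))
          + Real.exp ((-(ε / 2)) / B * (∑ t, Z q (s t)) - (-(ε / 2)) / B * ((1 - ε) * T)))
        (fun q _ => add_nonneg (Real.exp_pos _).le (Real.exp_pos _).le) (Finset.mem_univ q)
    have hc : 0 < (ε / 2) / B := by positivity
    constructor
    · have h1 : Real.exp ((-(ε / 2)) / B * (∑ t, Z q (s t)) - (-(ε / 2)) / B * ((1 - ε) * T)) < 1 := by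
        have := Real.exp_pos ((ε / 2) / B * (∑ t, Z q (s t)) - (ε / 2) / B * ((1 + ε) * T))
        linarith
      rw [Real.exp_lt_one_iff] at h1
      have h2 : (-(ε / 2)) / B * (∑ t, Z q (s t)) - (-(ε / 2)) / B * ((1 - ε) * T)
          = (ε / 2) / B * ((1 - ε) * T - ∑ t, Z q (s t)) := by ring
      rw [h2] at h1
      have h3 : (1 - ε) * T - ∑ t, Z q (s t) < 0 := by
        by_contra hcon
        push Not at hcon
        have := mul_nonneg hc.le hcon
        linarith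
      linarith
    · have h1 : Real.exp ((ε / 2) / B * (∑ t, Z q (s t)) - (ε / 2) / B * ((1 + ε) * T)) < 1 := by
        have := Real.exp_pos ((-(ε / 2)) / B * (∑ t, Z q (s t)) - (-(ε / 2)) / B * ((1 - ε) * T))
        linarith
      rw [Real.exp_lt_one_iff] at h1
      have h2 : (ε / 2) / B * (∑ t, Z q (s t)) - (ε / 2) / B * ((1 + ε) * T)
          = (ε / 2) / B * (∑ t, Z q (s t) - (1 + ε) * T) := by ring
      rw [h2] at h1
      have h3 : ∑ t, Z q (s t) - (1 + ε) * T < 0 := by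
        by_contra hcon
        push Not at hcon
        have := mul_nonneg hc.le hcon
        linarith
      linarith

end Vale.Agent.Lib.P249
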