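import Mathlib

/-! Rank weights on a finite pseudo-metric space: harmonic bound. -/

namespace Vale.Agent.Lib.P249

open Finset

/-- Sum of reciprocal ranks is at most the harmonic sum. -/
theorem sum_inv_rank_le {ι : Type*} [DecidableEq ι] (f : ι → ℝ) :
    ∀ (N : ℕ) (s : Finset ι), s.card = N →
    ∑ c ∈ s, (1 : ℝ) / ((s.filter (fun c' => f c' ≤ f c)).card : ℝ)
      ≤ ∑ r ∈ Finset.range N, 1 / ((r : ℝ) + 1) := by
  intro N
  induction N with
  | zero =>
    intro s hs
    rw [Finset.card_eq_zero] at hs
    subst hs
    simp
  | succ N ih =>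
    intro s hs
    have hne : s.Nonempty := by
      rw [← Finset.card_pos]; omega
    obtain ⟨j, hj, hmax⟩ := Finset.exists_max_image s f hne
    have hcard : (s.erase j).card = N := by
      rw [Finset.card_erase_of_mem hj]; omega
    have ih' := ih (s.erase j) hcard
    rw [← Finset.add_sum_erase s _ hj, Finset.sum_range_succ, add_comm]
    have h1 : (1 : ℝ) / ((s.filter (fun c' => f c' ≤ f j)).card : ℝ) = 1 / ((N : ℝ) + 1) := by
      have : s.filter (fun c' => f c' ≤ f j) = s := by
        apply Finset.filter_true_of_mem
        intro c hc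
        exact hmax c hc
      rw [this, hs]
      push_cast
      ring
    rw [h1]
    gcongr ?_ + _
    refine le_trans ?_ ih'
    apply Finset.sum_le_sum
    intro c hc
    have hcs : c ∈ s := Finset.mem_of_mem_erase hc
    have hpos : 0 < (((s.erase j).filter (fun c' => f c' ≤ f c)).card : ℝ) := by
      have : 0 < ((s.erase j).filter (fun c' => f c' ≤ f c)).card := by
        rw [Finset.card_pos]
        exact ⟨c, by simp [Finset.mem_filter, hc]⟩
      exact_mod_cast this
    apply one_div_le_one_div_of_le hpos
    have : ((s.erase j).filter (fun c' => f c' ≤ f c)).card ≤ (s.filter (fun c' => f c' ≤ f c)).card := by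
      apply Finset.card_le_card
      apply Finset.filter_subset_filter
      exact Finset.erase_subset _ _
    exact_mod_cast this

theorem sum_range_inv_le_log (N : ℕ) :
    ∑ r ∈ Finset.range N, 1 / ((r : ℝ) + 1) ≤ 1 + Real.log N := by
  have h := harmonic_le_one_add_log N
  have h2 : ((harmonic N : ℚ) : ℝ) = ∑ r ∈ Finset.range N, 1 / ((r : ℝ) + 1) := by
    unfold harmonic
    push_cast
    apply Finset.sum_congr rfl
    intro r _
    rw [one_div]
  rw [← h2]
  exact h

end Vale.Agent.Lib.P249
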