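import Mathlib
import Vale.Agent.Lib.P249.Rank

/-! Sensitivity bound via rank weights on a finite pseudo-metric space. -/

namespace Vale.Agent.Lib.P249

open Finset

/-- rank of `c` seen from `i`: number of points at distance at most `ρ i c` from `i`. -/
noncomputable def rk {ι : Type*} [Fintype ι] (ρ : ι → ι → ℝ) (i c : ι) : ℝ :=
  ((Finset.univ.filter (fun c' => ρ i c' ≤ ρ i c)).card : ℝ)

theorem rk_pos {ι : Type*} [Fintype ι] (ρ : ι → ι → ℝ) (i c : ι) : 0 < rk ρ i c := by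
  unfold rk
  have : 0 < (Finset.univ.filter (fun c' => ρ i c' ≤ ρ i c)).card := by
    rw [Finset.card_pos]
    exact ⟨c, by simp⟩
  exact_mod_cast this

theorem exists_slow_growth (N : ℕ → ℕ) (L n : ℕ) (h0 : 1 ≤ N 0) (hL : N L ≤ n)
    (hn : n ≤ 2 ^ L) (hLpos : 1 ≤ L) : ∃ j, j < L ∧ N (j + 1) ≤ 2 * N j := by
  by_contra hcon
  push Not at hcon
  have key : ∀ j, j ≤ L → 2 ^ j ≤ N j := by
    intro j
    induction j with
    | zero => intro _; simpa using h0
    | succ j ih =>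
      intro hj
      have h1 := ih (by omega)
      have h2 := hcon j (by omega)
      rw [pow_succ]
      omega
  obtain ⟨l, rfl⟩ : ∃ l, L = l + 1 := ⟨L - 1, by omega⟩
  have h1 := key l (by omega)
  have h2 := hcon l (by omega)
  rw [pow_succ] at hn
  omega

theorem abs_sub_rpow_le (p : ℝ) (hp : 1 ≤ p) (x y z : ℝ) :
    |x - y| ^ p ≤ 2 ^ (p - 1) * (|x - z| ^ p + |y - z| ^ p) := by
  have h1 : |x - y| ≤ |x - z| + |y - z| := by
    have : x - y = (x - z) - (y - z) := by ring
    rw [this]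
    exact abs_sub _ _
  have h2 : |x - y| ^ p ≤ (|x - z| + |y - z|) ^ p :=
    Real.rpow_le_rpow (abs_nonneg _) h1 (by linarith)
  refine le_trans h2 ?_
  have hA : 0 ≤ |x - z| := abs_nonneg _
  have hB : 0 ≤ |y - z| := abs_nonneg _
  lift |x - z| to NNReal using hA with A
  lift |y - z| to NNReal using hB with B
  have h3 := NNReal.rpow_add_le_mul_rpow_add_rpow A B hp
  exact_mod_cast h3

theorem sens_bound {ι : Type*} [Fintype ι] (p : ℝ) (hp : 1 ≤ p)
    (ρ : ι → ι → ℝ) (hρ0 : ∀ i j, 0 ≤ ρ i j) (hρs : ∀ i j, ρ i j = ρ j i)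
    (hρt : ∀ i j l, ρ i l ≤ ρ i j + ρ j l)
    (u : ι → ℝ) (hu : ∀ i j, ρ i j = 0 → u i = u j)
    (L : ℕ) (hL1 : 1 ≤ L) (hL : Fintype.card ι ≤ 2 ^ L) (a b : ι) :
    |u a - u b| ^ p / (ρ a b) ^ p ≤
      3 * (2 ^ (p - 1) * (2 * (L : ℝ)) ^ p) *
        ∑ i, ∑ c, (|u i - u c| ^ p / (ρ i c) ^ p) / rk ρ i c := by
  have hp0 : 0 < p := by linarith
  set τ : ι → ι → ℝ := fun i c => |u i - u c| ^ p / (ρ i c) ^ p with hτ
  have hτ0 : ∀ i c, 0 ≤ τ i c := by
    intro i c
    exact div_nonneg (Real.rpow_nonneg (abs_nonneg _) _) (Real.rpow_nonneg (hρ0 _ _) _)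
  have hrow0 : ∀ i, 0 ≤ ∑ c, τ i c / rk ρ i c := by
    intro i
    exact Finset.sum_nonneg (fun c _ => div_nonneg (hτ0 i c) (rk_pos ρ i c).le)
  have htot0 : 0 ≤ ∑ i, ∑ c, τ i c / rk ρ i c := Finset.sum_nonneg (fun i _ => hrow0 i)
  have hrow_le : ∀ i, ∑ c, τ i c / rk ρ i c ≤ ∑ i, ∑ c, τ i c / rk ρ i c := by
    intro i
    exact Finset.single_le_sum (f := fun i => ∑ c, τ i c / rk ρ i c) (fun i _ => hrow0 i)
      (Finset.mem_univ i)
  set K : ℝ := 2 ^ (p - 1) * (2 * (L : ℝ)) ^ p with hK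
  have hLr : (1 : ℝ) ≤ (L : ℝ) := by exact_mod_cast hL1
  have hK0 : 0 ≤ K := by positivity
  change τ a b ≤ 3 * K * ∑ i, ∑ c, τ i c / rk ρ i c
  by_cases h0 : ρ a b = 0
  · have : τ a b = 0 := by
      simp only [hτ]
      rw [hu a b h0]
      simp [Real.zero_rpow hp0.ne']
    rw [this]
    positivity
  have hr : 0 < ρ a b := lt_of_le_of_ne (hρ0 a b) (Ne.symm h0)
  set r := ρ a b with hrdef
  -- ball sizes
  let N : ℕ → ℕ := fun j => (Finset.univ.filter (fun c => ρ a c ≤ (2 * (j : ℝ) + 1) * r)).card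
  have hN0 : 1 ≤ N 0 := by
    have : 0 < N 0 := by
      rw [Finset.card_pos]
      exact ⟨b, by simp [hrdef]⟩
    exact this
  have hNL : N L ≤ Fintype.card ι := Finset.card_le_univ _
  obtain ⟨j, hjL, hj⟩ := exists_slow_growth N L _ hN0 hNL hL hL1
  set M := Finset.univ.filter (fun c => ρ a c ≤ (2 * (j : ℝ) + 1) * r) with hM
  have hMcard : N j = M.card := rfl
  have hjr : (j : ℝ) + 1 ≤ (L : ℝ) := by exact_mod_cast hjL
  have hMpos : 0 < (M.card : ℝ) := by
    have : 0 < M.card := by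
      rw [Finset.card_pos]
      refine ⟨b, ?_⟩
      simp only [hM, Finset.mem_filter, Finset.mem_univ, true_and]
      have : (0:ℝ) ≤ (j : ℝ) := Nat.cast_nonneg j
      nlinarith
    exact_mod_cast this
  -- pointwise estimate
  have hdiv : ∀ (i c : ι), ρ i c ≤ 2 * (L : ℝ) * r →
      |u i - u c| ^ p / r ^ p ≤ (2 * (L : ℝ)) ^ p * τ i c := by
    intro i c hic
    by_cases hz : ρ i c = 0
    · have : |u i - u c| ^ p = 0 := by
        rw [hu i c hz]; simp [Real.zero_rpow hp0.ne']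
      simp only [hτ]
      rw [this]; simp
    · have hpos : 0 < ρ i c := lt_of_le_of_ne (hρ0 i c) (Ne.symm hz)
      have h1 : (ρ i c) ^ p ≤ (2 * (L : ℝ)) ^ p * r ^ p := by
        rw [← Real.mul_rpow (by positivity) hr.le]
        exact Real.rpow_le_rpow hpos.le hic hp0.le
      have hrp : 0 < r ^ p := Real.rpow_pos_of_pos hr p
      have hcp : 0 < (ρ i c) ^ p := Real.rpow_pos_of_pos hpos p
      have hnum : 0 ≤ |u i - u c| ^ p := Real.rpow_nonneg (abs_nonneg _) _
      simp only [hτ]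
      rw [div_le_iff₀ hrp]
      calc |u i - u c| ^ p = |u i - u c| ^ p / (ρ i c) ^ p * (ρ i c) ^ p := by
            field_simp
        _ ≤ |u i - u c| ^ p / (ρ i c) ^ p * ((2 * (L : ℝ)) ^ p * r ^ p) := by
            apply mul_le_mul_of_nonneg_left h1
            positivity
        _ = (2 * (L : ℝ)) ^ p * (|u i - u c| ^ p / (ρ i c) ^ p) * r ^ p := by ring
  have hpt : ∀ c ∈ M, τ a b ≤ K * (τ a c + τ b c) := by
    intro c hc
    simp only [hM, Finset.mem_filter, Finset.mem_univ, true_and] at hc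
    have hac : ρ a c ≤ 2 * (L : ℝ) * r := by
      refine le_trans hc ?_
      apply mul_le_mul_of_nonneg_right _ hr.le
      linarith
    have hbc : ρ b c ≤ 2 * (L : ℝ) * r := by
      have h1 := hρt b a c
      rw [hρs b a] at h1
      have : ρ a b + ρ a c ≤ r + (2 * (j : ℝ) + 1) * r := by linarith
      have h2 : r + (2 * (j : ℝ) + 1) * r ≤ 2 * (L : ℝ) * r := by nlinarith
      linarith
    have h1 := abs_sub_rpow_le p hp (u a) (u b) (u c)
    have hrp : 0 < r ^ p := Real.rpow_pos_of_pos hr p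
    have h2 : τ a b ≤ 2 ^ (p - 1) * (|u a - u c| ^ p / r ^ p + |u b - u c| ^ p / r ^ p) := by
      simp only [hτ]
      rw [← add_div, ← mul_div_assoc]
      exact div_le_div_of_nonneg_right h1 hrp.le
    refine le_trans h2 ?_
    have h3 := hdiv a c hac
    have h4 := hdiv b c hbc
    have h5 : (0:ℝ) ≤ 2 ^ (p - 1) := by positivity
    calc 2 ^ (p - 1) * (|u a - u c| ^ p / r ^ p + |u b - u c| ^ p / r ^ p)
        ≤ 2 ^ (p - 1) * ((2 * (L : ℝ)) ^ p * τ a c + (2 * (L : ℝ)) ^ p * τ b c) := by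
          apply mul_le_mul_of_nonneg_left _ h5
          linarith
      _ = K * (τ a c + τ b c) := by rw [hK]; ring
  -- rank comparisons
  have hrka : ∀ c ∈ M, rk ρ a c ≤ (M.card : ℝ) := by
    intro c hc
    simp only [hM, Finset.mem_filter, Finset.mem_univ, true_and] at hc
    unfold rk
    have : (Finset.univ.filter (fun c' => ρ a c' ≤ ρ a c)).card ≤ M.card := by
      apply Finset.card_le_card
      intro c' hc'
      simp only [Finset.mem_filter, Finset.mem_univ, true_and] at hc'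
      simp only [hM, Finset.mem_filter, Finset.mem_univ, true_and]
      linarith
    exact_mod_cast this
  have hrkb : ∀ c ∈ M, rk ρ b c ≤ 2 * (M.card : ℝ) := by
    intro c hc
    simp only [hM, Finset.mem_filter, Finset.mem_univ, true_and] at hc
    unfold rk
    have h1 : (Finset.univ.filter (fun c' => ρ b c' ≤ ρ b c)).card ≤ N (j + 1) := by
      apply Finset.card_le_card
      intro c' hc'
      simp only [Finset.mem_filter, Finset.mem_univ, true_and] at hc'
      simp only [Finset.mem_filter, Finset.mem_univ, true_and]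
      have h2 := hρt a b c'
      have h3 := hρt b a c
      rw [hρs b a] at h3
      push_cast
      nlinarith
    have h2 : (Finset.univ.filter (fun c' => ρ b c' ≤ ρ b c)).card ≤ 2 * M.card := by
      rw [← hMcard]; exact le_trans h1 hj
    exact_mod_cast h2
  -- summation
  have hsum : (M.card : ℝ) * τ a b ≤ K * ∑ c ∈ M, (τ a c + τ b c) := by
    rw [Finset.mul_sum]
    calc (M.card : ℝ) * τ a b = ∑ _c ∈ M, τ a b := by
          rw [Finset.sum_const, nsmul_eq_mul]
      _ ≤ ∑ c ∈ M, K * (τ a c + τ b c) := Finset.sum_le_sum hpt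
  have hA : ∑ c ∈ M, τ a c ≤ (M.card : ℝ) * ∑ c, τ a c / rk ρ a c := by
    calc ∑ c ∈ M, τ a c ≤ ∑ c ∈ M, (M.card : ℝ) * (τ a c / rk ρ a c) := by
          apply Finset.sum_le_sum
          intro c hc
          have hpos := rk_pos ρ a c
          rw [← mul_div_assoc, le_div_iff₀ hpos, mul_comm (M.card : ℝ)]
          exact mul_le_mul_of_nonneg_left (hrka c hc) (hτ0 a c)
      _ = (M.card : ℝ) * ∑ c ∈ M, τ a c / rk ρ a c := by rw [Finset.mul_sum]
      _ ≤ (M.card : ℝ) * ∑ c, τ a c / rk ρ a c := by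
          apply mul_le_mul_of_nonneg_left _ hMpos.le
          apply Finset.sum_le_sum_of_subset_of_nonneg (Finset.subset_univ _)
          intro c _ _
          exact div_nonneg (hτ0 a c) (rk_pos ρ a c).le
  have hB : ∑ c ∈ M, τ b c ≤ (M.card : ℝ) * (2 * ∑ c, τ b c / rk ρ b c) := by
    calc ∑ c ∈ M, τ b c ≤ ∑ c ∈ M, (2 * (M.card : ℝ)) * (τ b c / rk ρ b c) := by
          apply Finset.sum_le_sum
          intro c hc
          have hpos := rk_pos ρ b c
          rw [← mul_div_assoc, le_div_iff₀ hpos, mul_comm (2 * (M.card : ℝ))]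
          exact mul_le_mul_of_nonneg_left (hrkb c hc) (hτ0 b c)
      _ = (M.card : ℝ) * (2 * ∑ c ∈ M, τ b c / rk ρ b c) := by rw [← Finset.mul_sum]; ring
      _ ≤ (M.card : ℝ) * (2 * ∑ c, τ b c / rk ρ b c) := by
          apply mul_le_mul_of_nonneg_left _ hMpos.le
          apply mul_le_mul_of_nonneg_left _ (by norm_num)
          apply Finset.sum_le_sum_of_subset_of_nonneg (Finset.subset_univ _)
          intro c _ _
          exact div_nonneg (hτ0 b c) (rk_pos ρ b c).le
  have hfin : (M.card : ℝ) * τ a b ≤ (M.card : ℝ) * (3 * K * ∑ i, ∑ c, τ i c / rk ρ i c) := by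
    refine le_trans hsum ?_
    rw [Finset.sum_add_distrib]
    have h1 := hrow_le a
    have h2 := hrow_le b
    set tot := ∑ i, ∑ c, τ i c / rk ρ i c
    have h3 : ∑ c ∈ M, τ a c + ∑ c ∈ M, τ b c ≤ (M.card : ℝ) * (3 * tot) := by
      have : (M.card : ℝ) * ∑ c, τ a c / rk ρ a c + (M.card : ℝ) * (2 * ∑ c, τ b c / rk ρ b c)
          ≤ (M.card : ℝ) * (3 * tot) := by
        rw [← mul_add]
        apply mul_le_mul_of_nonneg_left _ hMpos.le
        linarith
      linarith
    calc K * (∑ c ∈ M, τ a c + ∑ c ∈ M, τ b c) ≤ K * ((M.card : ℝ) * (3 * tot)) :=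
          mul_le_mul_of_nonneg_left h3 hK0
      _ = (M.card : ℝ) * (3 * K * tot) := by ring
  exact le_of_mul_le_mul_left hfin hMpos

end Vale.Agent.Lib.P249
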