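import Mathlib
import Vale.Agent.Lib.P249.Rank
import Vale.Agent.Lib.P249.Sens
import Vale.Agent.Lib.P249.Chernoff

/-! Importance sampling of coordinates for a finite family of points of `ℓ_p^κ`. -/

namespace Vale.Agent.Lib.P249

open Finset

theorem core {ι κ : Type*} [Fintype ι] [Fintype κ] (p : ℝ) (hp : 1 ≤ p) (x : ι → κ → ℝ)
    (ε : ℝ) (hε0 : 0 < ε) (hε1 : ε ≤ 1) (L : ℕ) (hL1 : 1 ≤ L) (hL : Fintype.card ι ≤ 2 ^ L)
    (T : ℕ)
    (hT : 2 * ((Fintype.card ι : ℝ) ^ 2) * Real.exp (-(ε ^ 2 * T /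
      (4 * (3 * (2 ^ (p - 1) * (2 * (L : ℝ)) ^ p) *
        ((Fintype.card ι : ℝ) * (1 + Real.log (Fintype.card ι))))))) < 1) :
    ∃ y : ι → Fin T → ℝ, ∀ i j,
      (1 - ε) * ∑ k, |x i k - x j k| ^ p ≤ ∑ t, |y i t - y j t| ^ p ∧
      ∑ t, |y i t - y j t| ^ p ≤ (1 + ε) * ∑ k, |x i k - x j k| ^ p := by
  classical
  have hp0 : 0 < p := by linarith
  set n : ℝ := (Fintype.card ι : ℝ) with hn
  set Dd : ι → ι → ℝ := fun i j => ∑ k, |x i k - x j k| ^ p with hDd
  have hg0 : ∀ i j k, 0 ≤ |x i k - x j k| ^ p := fun i j k => Real.rpow_nonneg (abs_nonneg _) _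
  have hDd0 : ∀ i j, 0 ≤ Dd i j := fun i j => Finset.sum_nonneg (fun k _ => hg0 i j k)
  set ρ : ι → ι → ℝ := fun i j => (Dd i j) ^ (1 / p) with hρ
  have hρ0 : ∀ i j, 0 ≤ ρ i j := fun i j => Real.rpow_nonneg (hDd0 i j) _
  have hρs : ∀ i j, ρ i j = ρ j i := by
    intro i j
    simp only [hρ, hDd]
    congr 1
    apply Finset.sum_congr rfl
    intro k _
    rw [abs_sub_comm]
  have hρt : ∀ i j l, ρ i l ≤ ρ i j + ρ j l := by
    intro i j l
    have h := Real.Lp_add_le Finset.univ (fun k => x i k - x j k) (fun k => x j k - x l k) hp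
    simp only [sub_add_sub_cancel] at h
    exact h
  have hρp : ∀ i j, (ρ i j) ^ p = Dd i j := by
    intro i j
    simp only [hρ]
    rw [one_div, Real.rpow_inv_rpow (hDd0 i j) hp0.ne']
  have hzero : ∀ i j, Dd i j = 0 → ∀ k, x i k = x j k := by
    intro i j h k
    have h1 := (Finset.sum_eq_zero_iff_of_nonneg (fun k _ => hg0 i j k)).mp h k (Finset.mem_univ k)
    have h2 : |x i k - x j k| = 0 := by
      by_contra hne
      have : 0 < |x i k - x j k| := lt_of_le_of_ne (abs_nonneg _) (Ne.symm hne)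
      have := Real.rpow_pos_of_pos this p
      linarith
    have h3 := abs_eq_zero.mp h2
    linarith
  have hu : ∀ k i j, ρ i j = 0 → x i k = x j k := by
    intro k i j h
    apply hzero i j
    rw [← hρp i j, h, Real.zero_rpow hp0.ne']
  set σ : κ → ℝ := fun k => ∑ i, ∑ c, (|x i k - x c k| ^ p / (ρ i c) ^ p) / rk ρ i c with hσ
  have hσ0 : ∀ k, 0 ≤ σ k := by
    intro k
    apply Finset.sum_nonneg; intro i _
    apply Finset.sum_nonneg; intro c _
    exact div_nonneg (div_nonneg (hg0 i c k) (Real.rpow_nonneg (hρ0 i c) _)) (rk_pos ρ i c).le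
  set Λ : ℝ := 3 * (2 ^ (p - 1) * (2 * (L : ℝ)) ^ p) with hΛ
  have hLr : (1 : ℝ) ≤ (L : ℝ) := by exact_mod_cast hL1
  have hΛ0 : 0 < Λ := by positivity
  have hsens : ∀ a b k, |x a k - x b k| ^ p / Dd a b ≤ Λ * σ k := by
    intro a b k
    have h := sens_bound p hp ρ hρ0 hρs hρt (fun i => x i k) (hu k) L hL1 hL a b
    rw [hρp a b] at h
    exact h
  set W : ℝ := ∑ k, σ k with hW
  have hW0 : 0 ≤ W := Finset.sum_nonneg (fun k _ => hσ0 k)
  have hWle : W ≤ n * (1 + Real.log n) := by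
    have h1 : W = ∑ i, ∑ c, (∑ k, |x i k - x c k| ^ p / (ρ i c) ^ p) / rk ρ i c := by
      simp only [hW, hσ]
      rw [Finset.sum_comm]
      apply Finset.sum_congr rfl; intro i _
      rw [Finset.sum_comm]
      apply Finset.sum_congr rfl; intro c _
      rw [Finset.sum_div]
    rw [h1]
    have h2 : ∀ i, ∑ c, (∑ k, |x i k - x c k| ^ p / (ρ i c) ^ p) / rk ρ i c ≤ 1 + Real.log n := by
      intro i
      have h3 : ∀ c, (∑ k, |x i k - x c k| ^ p / (ρ i c) ^ p) / rk ρ i c ≤ 1 / rk ρ i c := by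
        intro c
        apply div_le_div_of_nonneg_right _ (rk_pos ρ i c).le
        rw [← Finset.sum_div, hρp i c]
        exact div_self_le_one _
      refine le_trans (Finset.sum_le_sum (fun c _ => h3 c)) ?_
      have h4 := sum_inv_rank_le (ρ i) (Fintype.card ι) Finset.univ Finset.card_univ
      have h5 := sum_range_inv_le_log (Fintype.card ι)
      exact le_trans h4 h5
    calc ∑ i, ∑ c, (∑ k, |x i k - x c k| ^ p / (ρ i c) ^ p) / rk ρ i c
        ≤ ∑ _i : ι, (1 + Real.log n) := Finset.sum_le_sum (fun i _ => h2 i)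
      _ = n * (1 + Real.log n) := by
        rw [Finset.sum_const, Finset.card_univ, nsmul_eq_mul]
  have hsum1 : ∀ i j, Dd i j ≠ 0 → ∑ k, |x i k - x j k| ^ p / Dd i j = 1 := by
    intro i j h
    rw [← Finset.sum_div]
    exact div_self h
  by_cases hWz : W = 0
  · -- all points coincide
    have hσz : ∀ k, σ k = 0 := by
      intro k
      exact (Finset.sum_eq_zero_iff_of_nonneg (fun k _ => hσ0 k)).mp hWz k (Finset.mem_univ k)
    have hall : ∀ i j, Dd i j = 0 := by
      intro i j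
      by_contra h
      have h1 := hsum1 i j h
      have h2 : ∑ k, |x i k - x j k| ^ p / Dd i j ≤ 0 := by
        apply Finset.sum_nonpos
        intro k _
        have := hsens i j k
        rw [hσz k, mul_zero] at this
        exact this
      linarith
    refine ⟨fun _ _ => 0, ?_⟩
    intro i j
    have : ∑ k, |x i k - x j k| ^ p = 0 := hall i j
    rw [this]
    simp [Real.zero_rpow hp0.ne']
  have hWpos : 0 < W := lt_of_le_of_ne hW0 (Ne.symm hWz)
  set π : κ → ℝ := fun k => σ k / W with hπ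
  have hπ0 : ∀ k, 0 ≤ π k := fun k => div_nonneg (hσ0 k) hW0
  have hπ1 : ∑ k, π k = 1 := by
    simp only [hπ]
    rw [← Finset.sum_div]
    exact div_self hWz
  let P := {q : ι × ι // Dd q.1 q.2 ≠ 0}
  set Z : P → κ → ℝ := fun q k => (|x q.1.1 k - x q.1.2 k| ^ p / Dd q.1.1 q.1.2) / π k with hZ
  set B : ℝ := Λ * (n * (1 + Real.log n)) with hB
  have hBW : Λ * W ≤ B := mul_le_mul_of_nonneg_left hWle hΛ0.le
  have hBpos : 0 < B := lt_of_lt_of_le (mul_pos hΛ0 hWpos) hBW
  have ht0 : ∀ (q : P) k, 0 ≤ |x q.1.1 k - x q.1.2 k| ^ p / Dd q.1.1 q.1.2 :=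
    fun q k => div_nonneg (hg0 _ _ _) (hDd0 _ _)
  have hZ0 : ∀ q k, 0 ≤ Z q k := fun q k => div_nonneg (ht0 q k) (hπ0 k)
  have hZB : ∀ q k, Z q k ≤ B := by
    intro q k
    simp only [hZ]
    by_cases hz : π k = 0
    · rw [hz, div_zero]; exact hBpos.le
    · have hpos : 0 < π k := lt_of_le_of_ne (hπ0 k) (Ne.symm hz)
      rw [div_le_iff₀ hpos]
      have h1 := hsens q.1.1 q.1.2 k
      have h2 : σ k = W * π k := by
        simp only [hπ]; field_simp
      rw [h2] at h1
      calc _ ≤ Λ * (W * π k) := h1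
        _ = (Λ * W) * π k := by ring
        _ ≤ B * π k := mul_le_mul_of_nonneg_right hBW hpos.le
  have hZ1 : ∀ q, ∑ k, π k * Z q k = 1 := by
    intro q
    rw [← hsum1 q.1.1 q.1.2 q.2]
    apply Finset.sum_congr rfl
    intro k _
    simp only [hZ]
    by_cases hz : π k = 0
    · rw [hz, div_zero, mul_zero]
      have h1 := hsens q.1.1 q.1.2 k
      have h2 : σ k = 0 := by
        have : σ k / W = 0 := hz
        rcases div_eq_zero_iff.mp this with h | h
        · exact h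
        · exact absurd h hWz
      rw [h2, mul_zero] at h1
      exact le_antisymm (ht0 q k) h1
    · field_simp
  have hcardP : (Fintype.card P : ℝ) ≤ n ^ 2 := by
    have h1 : Fintype.card P ≤ Fintype.card (ι × ι) := Fintype.card_subtype_le _
    rw [Fintype.card_prod] at h1
    have : (Fintype.card P : ℝ) ≤ ((Fintype.card ι * Fintype.card ι : ℕ) : ℝ) := by exact_mod_cast h1
    rw [hn, sq]
    push_cast at this
    exact this
  have hT' : 2 * (Fintype.card P : ℝ) * Real.exp (-(ε ^ 2 * T / (4 * B))) < 1 := by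
    refine lt_of_le_of_lt ?_ hT
    apply mul_le_mul_of_nonneg_right _ (Real.exp_pos _).le
    linarith
  obtain ⟨s, hspos, hs⟩ := exists_good_sample π hπ0 hπ1 Z B hBpos hZ0 hZB hZ1 ε hε0 hε1 T hT'
  refine ⟨fun i t => x i (s t) / ((T : ℝ) * π (s t)) ^ (1 / p), ?_⟩
  intro i j
  by_cases hD : Dd i j = 0
  · have h1 : ∑ k, |x i k - x j k| ^ p = 0 := hD
    rw [h1]
    have h2 : ∀ t, x i (s t) = x j (s t) := fun t => hzero i j hD (s t)
    simp [h2, Real.zero_rpow hp0.ne']
  · have hTpos : 0 < (T : ℝ) := by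
      by_contra hcon
      have hT00 : (T : ℝ) = 0 := le_antisymm (not_lt.mp hcon) (Nat.cast_nonneg T)
      rw [hT00] at hT'
      simp only [mul_zero, zero_div, neg_zero, Real.exp_zero, mul_one] at hT'
      have : 1 ≤ Fintype.card P := Fintype.card_pos_iff.mpr ⟨⟨(i, j), hD⟩⟩
      have : (1 : ℝ) ≤ (Fintype.card P : ℝ) := by exact_mod_cast this
      linarith
    have hkey : ∑ t, |x i (s t) / ((T : ℝ) * π (s t)) ^ (1 / p)
        - x j (s t) / ((T : ℝ) * π (s t)) ^ (1 / p)| ^ p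
        = Dd i j / T * ∑ t, Z ⟨(i, j), hD⟩ (s t) := by
      rw [Finset.mul_sum]
      apply Finset.sum_congr rfl
      intro t _
      have hc : 0 < (T : ℝ) * π (s t) := mul_pos hTpos (hspos t)
      have hc' : 0 < ((T : ℝ) * π (s t)) ^ (1 / p) := Real.rpow_pos_of_pos hc _
      rw [← sub_div, abs_div, abs_of_pos hc', Real.div_rpow (abs_nonneg _) hc'.le,
        one_div, Real.rpow_inv_rpow hc.le hp0.ne']
      simp only [hZ]
      have := (hspos t).ne'
      field_simp
    have h1 := hs ⟨(i, j), hD⟩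
    have hDpos : 0 < Dd i j := lt_of_le_of_ne (hDd0 i j) (Ne.symm hD)
    have hDT : 0 < Dd i j / T := div_pos hDpos hTpos
    change (1 - ε) * Dd i j ≤ _ ∧ _ ≤ (1 + ε) * Dd i j
    rw [hkey]
    constructor
    · calc (1 - ε) * Dd i j = Dd i j / T * ((1 - ε) * T) := by field_simp
        _ ≤ _ := mul_le_mul_of_nonneg_left h1.1 hDT.le
    · calc _ ≤ Dd i j / T * ((1 + ε) * T) := mul_le_mul_of_nonneg_left h1.2 hDT.le
        _ = (1 + ε) * Dd i j := by field_simp

end Vale.Agent.Lib.P249
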