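import Mathlib

/-!
# Analysis on the discrete cube: averages, bit flips, the Poincare inequality
-/

namespace Vale.Agent.Lib.P249

open Finset

/-- The discrete cube. -/
abbrev Cube (N : ℕ) : Type := Fin N → Bool

/-- Uniform average over the cube. -/
noncomputable def EE {N : ℕ} (f : Cube N → ℝ) : ℝ := (∑ ε, f ε) / 2 ^ N

/-- Flipping the `j`-th bit. -/
def flip {N : ℕ} (j : Fin N) (ε : Cube N) : Cube N := Function.update ε j (!ε j)

theorem flip_flip {N : ℕ} (j : Fin N) (ε : Cube N) : flip j (flip j ε) = ε := by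
  unfold flip
  simp

/-- Flipping as an equivalence. -/
def flipEquiv {N : ℕ} (j : Fin N) : Cube N ≃ Cube N where
  toFun := flip j
  invFun := flip j
  left_inv := flip_flip j
  right_inv := flip_flip j

theorem EE_flip {N : ℕ} (j : Fin N) (f : Cube N → ℝ) : EE (fun ε => f (flip j ε)) = EE f := by
  unfold EE
  congr 1
  exact Fintype.sum_equiv (flipEquiv j) _ _ (fun _ => rfl)

theorem EE_add {N : ℕ} (f g : Cube N → ℝ) : EE (fun ε => f ε + g ε) = EE f + EE g := by
  unfold EE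
  rw [Finset.sum_add_distrib, add_div]

theorem EE_sub {N : ℕ} (f g : Cube N → ℝ) : EE (fun ε => f ε - g ε) = EE f - EE g := by
  unfold EE
  rw [Finset.sum_sub_distrib, sub_div]

theorem EE_const_mul {N : ℕ} (c : ℝ) (f : Cube N → ℝ) : EE (fun ε => c * f ε) = c * EE f := by
  unfold EE
  rw [← Finset.mul_sum, mul_div_assoc]

theorem EE_const {N : ℕ} (c : ℝ) : EE (fun _ : Cube N => c) = c := by
  unfold EE
  simp [Fintype.card_bool]

theorem EE_mono {N : ℕ} {f g : Cube N → ℝ} (h : ∀ ε, f ε ≤ g ε) : EE f ≤ EE g := by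
  unfold EE
  exact div_le_div_of_nonneg_right (Finset.sum_le_sum (fun ε _ => h ε)) (by positivity)

theorem EE_nonneg {N : ℕ} {f : Cube N → ℝ} (h : ∀ ε, 0 ≤ f ε) : 0 ≤ EE f := by
  unfold EE
  exact div_nonneg (Finset.sum_nonneg (fun ε _ => h ε)) (by positivity)

theorem EE_sum {N : ℕ} {ι : Type*} (s : Finset ι) (f : ι → Cube N → ℝ) :
    EE (fun ε => ∑ i ∈ s, f i ε) = ∑ i ∈ s, EE (f i) := by
  unfold EE
  rw [Finset.sum_comm, Finset.sum_div]

theorem sq_EE_le {N : ℕ} (f : Cube N → ℝ) : (EE f) ^ 2 ≤ EE (fun ε => f ε ^ 2) := by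
  unfold EE
  have h := sq_sum_le_card_mul_sum_sq (s := (Finset.univ : Finset (Cube N))) (f := f)
  have hc : ((Finset.univ : Finset (Cube N)).card : ℝ) = 2 ^ N := by
    simp [Fintype.card_bool]
  rw [hc] at h
  rw [div_pow, div_le_div_iff₀ (by positivity) (by positivity)]
  calc (∑ ε, f ε) ^ 2 * 2 ^ N ≤ (2 ^ N * ∑ ε, f ε ^ 2) * 2 ^ N :=
        mul_le_mul_of_nonneg_right h (by positivity)
    _ = (∑ ε, f ε ^ 2) * (2 ^ N) ^ 2 := by ring

theorem EE_succ {N : ℕ} (f : Cube (N + 1) → ℝ) :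
    EE f = (EE (fun ε : Cube N => f (Fin.cons false ε)) +
      EE (fun ε : Cube N => f (Fin.cons true ε))) / 2 := by
  unfold EE
  have h : ∑ ε : Cube (N + 1), f ε
      = ∑ x : Bool × Cube N, f (Fin.cons x.1 x.2) :=
    (Fintype.sum_equiv (Fin.consEquiv (fun _ : Fin (N + 1) => Bool)) _ _ (fun _ => rfl)).symm
  rw [h, Fintype.sum_prod_type]
  simp only [Fintype.sum_bool]
  rw [pow_succ]
  field_simp
  ring

theorem flip_cons_zero {N : ℕ} (b : Bool) (ε : Cube N) :
    flip (0 : Fin (N + 1)) (Fin.cons b ε : Cube (N + 1)) = Fin.cons (!b) ε := by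
  unfold flip
  simp [Fin.update_cons_zero]

theorem flip_cons_succ {N : ℕ} (b : Bool) (ε : Cube N) (j : Fin N) :
    flip j.succ (Fin.cons b ε : Cube (N + 1)) = Fin.cons b (flip j ε) := by
  unfold flip
  rw [Fin.cons_update]
  simp

/-- The Poincare inequality on the discrete cube. -/
theorem poincare : ∀ (N : ℕ) (F : Cube N → ℝ),
    EE (fun ε => F ε ^ 2) - (EE F) ^ 2 ≤ (1 / 4) * ∑ j, EE (fun ε => (F ε - F (flip j ε)) ^ 2) := by
  intro N
  induction N with
  | zero =>
    intro F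
    simp [EE]
  | succ N ih =>
    intro F
    set F0 : Cube N → ℝ := fun ε => F (Fin.cons false ε) with hF0
    set F1 : Cube N → ℝ := fun ε => F (Fin.cons true ε) with hF1
    have h0 := ih F0
    have h1 := ih F1
    have e1 : EE (fun ε => F ε ^ 2) = (EE (fun ε => F0 ε ^ 2) + EE (fun ε => F1 ε ^ 2)) / 2 :=
      EE_succ _
    have e2 : EE F = (EE F0 + EE F1) / 2 := EE_succ _
    have e3 : EE (fun ε => (F ε - F (flip 0 ε)) ^ 2) = EE (fun ε => (F0 ε - F1 ε) ^ 2) := by
      rw [EE_succ]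
      simp only [flip_cons_zero, Bool.not_false, Bool.not_true]
      have : EE (fun ε : Cube N => (F (Fin.cons true ε) - F (Fin.cons false ε)) ^ 2)
          = EE (fun ε : Cube N => (F (Fin.cons false ε) - F (Fin.cons true ε)) ^ 2) := by
        congr 1
        funext ε
        ring
      rw [this]
      ring
    have e4 : ∀ j : Fin N, EE (fun ε => (F ε - F (flip j.succ ε)) ^ 2)
        = (EE (fun ε => (F0 ε - F0 (flip j ε)) ^ 2) + EE (fun ε => (F1 ε - F1 (flip j ε)) ^ 2)) / 2 := by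
      intro j
      rw [EE_succ]
      simp only [flip_cons_succ]
      rfl
    have e5 : (EE F0 - EE F1) ^ 2 ≤ EE (fun ε => (F0 ε - F1 ε) ^ 2) := by
      rw [← EE_sub]
      exact sq_EE_le _
    rw [Fin.sum_univ_succ, e1, e2, e3]
    simp only [e4]
    rw [← Finset.sum_div, Finset.sum_add_distrib]
    nlinarith [h0, h1, e5]

end Vale.Agent.Lib.P249
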