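import Mathlib
import Vale.Agent.Lib.P249.Cube

/-!
# Moment bounds on the cube from a one-sided gradient bound
-/

namespace Vale.Agent.Lib.P249

open Finset

/-- Elementary inequality used to absorb the gradient term. -/
theorem absorb (c : ℕ) : ∃ K : ℝ, 0 ≤ K ∧ ∀ w v : ℝ, 0 ≤ w → 0 ≤ v →
    (1 / 2) * (v * (((c : ℝ) + 1) ^ 2 * (2 * w + 2 * v) ^ c)) ≤ (1 / 2) * w ^ (c + 1) + K * v ^ (c + 1) := by
  set b2 : ℝ := ((c : ℝ) + 1) ^ 2 with hb2
  have hb2pos : 0 < b2 := by positivity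
  set Λ : ℝ := b2 * 4 ^ c with hΛ
  have hΛpos : 0 < Λ := by positivity
  have hΛ1 : 1 ≤ Λ := by
    have h1 : (1 : ℝ) ≤ b2 := by
      rw [hb2]
      have : (1 : ℝ) ≤ (c : ℝ) + 1 := by
        have : (0 : ℝ) ≤ c := Nat.cast_nonneg c
        linarith
      nlinarith
    have h2 : (1 : ℝ) ≤ 4 ^ c := one_le_pow₀ (by norm_num)
    rw [hΛ]
    nlinarith
  refine ⟨(1 / 2) * b2 * (2 * (Λ + 1)) ^ c, by positivity, ?_⟩
  intro w v hw hv
  by_cases hcase : Λ * v ≤ w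
  · -- large w
    have hv' : v ≤ w / Λ := by
      rw [le_div_iff₀ hΛpos]
      linarith
    have hvw : v ≤ w := by nlinarith
    have ht : 2 * w + 2 * v ≤ 4 * w := by linarith
    have h1 : (2 * w + 2 * v) ^ c ≤ (4 * w) ^ c := pow_le_pow_left₀ (by positivity) ht c
    have h2 : v * (b2 * (2 * w + 2 * v) ^ c) ≤ (w / Λ) * (b2 * (4 * w) ^ c) := by
      apply mul_le_mul hv' _ (by positivity) (by positivity)
      exact mul_le_mul_of_nonneg_left h1 hb2pos.le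
    have h3 : (w / Λ) * (b2 * (4 * w) ^ c) = w ^ (c + 1) := by
      rw [hΛ, mul_pow]
      field_simp
      ring
    have h4 : 0 ≤ (1 / 2) * b2 * (2 * (Λ + 1)) ^ c * v ^ (c + 1) := by positivity
    linarith
  · -- small w
    push Not at hcase
    have ht : 2 * w + 2 * v ≤ (2 * (Λ + 1)) * v := by nlinarith
    have h1 : (2 * w + 2 * v) ^ c ≤ ((2 * (Λ + 1)) * v) ^ c := pow_le_pow_left₀ (by positivity) ht c
    have h2 : v * (b2 * (2 * w + 2 * v) ^ c) ≤ v * (b2 * ((2 * (Λ + 1)) * v) ^ c) := by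
      apply mul_le_mul_of_nonneg_left _ hv
      exact mul_le_mul_of_nonneg_left h1 hb2pos.le
    have h3 : (1 / 2) * (v * (b2 * ((2 * (Λ + 1)) * v) ^ c))
        = (1 / 2) * b2 * (2 * (Λ + 1)) ^ c * v ^ (c + 1) := by
      rw [mul_pow]
      ring
    have h4 : 0 ≤ (1 / 2) * w ^ (c + 1) := by positivity
    linarith

/-- One step of the moment recursion. -/
theorem moment_step (c : ℕ) : ∃ K : ℝ, 0 ≤ K ∧ ∀ (N : ℕ) (Y : Cube N → ℝ) (v : ℝ), 0 ≤ v →
    (∀ ε, ∑ j, (max (Y (flip j ε) - Y ε) 0) ^ 2 ≤ v) →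
    EE (fun ε => (Y ε ^ (c + 1)) ^ 2) ≤ 2 * (EE (fun ε => Y ε ^ (c + 1))) ^ 2 + K * v ^ (c + 1) := by
  obtain ⟨K, hK0, hK⟩ := absorb c
  refine ⟨2 * K, by positivity, ?_⟩
  intro N Y v hv hgrad
  set b2 : ℝ := ((c : ℝ) + 1) ^ 2 with hb2
  have hb2pos : 0 < b2 := by positivity
  set F : Cube N → ℝ := fun ε => Y ε ^ (c + 1) with hF
  set P : Fin N → Cube N → ℝ := fun j ε =>
    (max (Y (flip j ε) - Y ε) 0) ^ 2 * (b2 * (2 * Y ε ^ 2 + 2 * v) ^ c) with hP
  have hpoin := poincare N F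
  -- single-term bound
  have hsingle : ∀ ε j, (max (Y (flip j ε) - Y ε) 0) ^ 2 ≤ v := by
    intro ε j
    refine le_trans ?_ (hgrad ε)
    exact Finset.single_le_sum (f := fun j => (max (Y (flip j ε) - Y ε) 0) ^ 2)
      (fun i _ => sq_nonneg _) (Finset.mem_univ j)
  -- the key one-directional estimate
  have hdir : ∀ y y' : ℝ, y ≤ y' → (y' - y) ^ 2 ≤ v →
      (y ^ (c + 1) - y' ^ (c + 1)) ^ 2 ≤ (y' - y) ^ 2 * (b2 * (2 * y ^ 2 + 2 * v) ^ c) := by
    intro y y' _ hyv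
    have h1 := abs_pow_sub_pow_le (a := y) (b := y') (n := c + 1)
    simp only [Nat.add_sub_cancel] at h1
    have h2 : (y ^ (c + 1) - y' ^ (c + 1)) ^ 2 ≤ (|y - y'| * ((c + 1 : ℕ) : ℝ) * max |y| |y'| ^ c) ^ 2 := by
      rw [← sq_abs (y ^ (c + 1) - y' ^ (c + 1))]
      exact pow_le_pow_left₀ (abs_nonneg _) h1 2
    have h3 : (max |y| |y'|) ^ 2 ≤ 2 * y ^ 2 + 2 * v := by
      rcases max_cases |y| |y'| with ⟨h, _⟩ | ⟨h, _⟩
      · rw [h, sq_abs]
        nlinarith [sq_nonneg y]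
      · rw [h, sq_abs]
        nlinarith [sq_nonneg (y - (y' - y))]
    have h4 : (|y - y'| * ((c + 1 : ℕ) : ℝ) * max |y| |y'| ^ c) ^ 2
        = (y' - y) ^ 2 * (b2 * ((max |y| |y'|) ^ 2) ^ c) := by
      rw [mul_pow, mul_pow, sq_abs, hb2]
      push_cast
      ring
    rw [h4] at h2
    refine h2.trans ?_
    apply mul_le_mul_of_nonneg_left _ (sq_nonneg _)
    apply mul_le_mul_of_nonneg_left _ hb2pos.le
    exact pow_le_pow_left₀ (sq_nonneg _) h3 c
  have hA : ∀ j ε, (F ε - F (flip j ε)) ^ 2 ≤ P j ε + P j (flip j ε) := by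
    intro j ε
    have hP0 : ∀ ε', 0 ≤ P j ε' := by
      intro ε'
      simp only [hP]
      have : 0 ≤ 2 * Y ε' ^ 2 + 2 * v := by positivity
      positivity
    simp only [hF]
    rcases le_total (Y ε) (Y (flip j ε)) with hle | hle
    · have hm : max (Y (flip j ε) - Y ε) 0 = Y (flip j ε) - Y ε := max_eq_left (by linarith)
      have hs := hsingle ε j
      rw [hm] at hs
      have := hdir _ _ hle hs
      have hPe : P j ε = (Y (flip j ε) - Y ε) ^ 2 * (b2 * (2 * Y ε ^ 2 + 2 * v) ^ c) := by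
        simp only [hP, hm]
      have := hP0 (flip j ε)
      linarith
    · have hm : max (Y (flip j (flip j ε)) - Y (flip j ε)) 0 = Y ε - Y (flip j ε) := by
        rw [flip_flip]
        exact max_eq_left (by linarith)
      have hs := hsingle (flip j ε) j
      rw [hm] at hs
      have h5 := hdir _ _ hle hs
      have hPe : P j (flip j ε)
          = (Y ε - Y (flip j ε)) ^ 2 * (b2 * (2 * Y (flip j ε) ^ 2 + 2 * v) ^ c) := by
        simp only [hP, hm]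
      have := hP0 ε
      have h6 : (Y ε ^ (c + 1) - Y (flip j ε) ^ (c + 1)) ^ 2
          = (Y (flip j ε) ^ (c + 1) - Y ε ^ (c + 1)) ^ 2 := by ring
      linarith
  have hB : ∀ j, EE (fun ε => (F ε - F (flip j ε)) ^ 2) ≤ 2 * EE (P j) := by
    intro j
    calc EE (fun ε => (F ε - F (flip j ε)) ^ 2) ≤ EE (fun ε => P j ε + P j (flip j ε)) :=
          EE_mono (hA j)
      _ = EE (P j) + EE (fun ε => P j (flip j ε)) := EE_add _ _
      _ = 2 * EE (P j) := by rw [EE_flip]; ring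
  have hC : ∑ j, EE (P j) ≤ EE (fun ε => v * (b2 * (2 * Y ε ^ 2 + 2 * v) ^ c)) := by
    rw [← EE_sum]
    apply EE_mono
    intro ε
    simp only [hP]
    rw [← Finset.sum_mul]
    apply mul_le_mul_of_nonneg_right (hgrad ε)
    have : 0 ≤ 2 * Y ε ^ 2 + 2 * v := by positivity
    positivity
  have hD : (1 / 2) * EE (fun ε => v * (b2 * (2 * Y ε ^ 2 + 2 * v) ^ c))
      ≤ (1 / 2) * EE (fun ε => (Y ε ^ (c + 1)) ^ 2) + K * v ^ (c + 1) := by
    have : (1 / 2) * EE (fun ε => (Y ε ^ (c + 1)) ^ 2) + K * v ^ (c + 1)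
        = EE (fun ε => (1 / 2) * (Y ε ^ (c + 1)) ^ 2 + K * v ^ (c + 1)) := by
      rw [EE_add, EE_const, EE_const_mul]
    rw [this, ← EE_const_mul]
    apply EE_mono
    intro ε
    have h := hK (Y ε ^ 2) v (sq_nonneg _) hv
    have e : (Y ε ^ 2) ^ (c + 1) = (Y ε ^ (c + 1)) ^ 2 := by
      rw [← pow_mul, ← pow_mul, mul_comm]
    rw [e] at h
    exact h
  have hE : ∑ j, EE (fun ε => (F ε - F (flip j ε)) ^ 2)
      ≤ 2 * EE (fun ε => v * (b2 * (2 * Y ε ^ 2 + 2 * v) ^ c)) := by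
    calc ∑ j, EE (fun ε => (F ε - F (flip j ε)) ^ 2) ≤ ∑ j, 2 * EE (P j) :=
          Finset.sum_le_sum (fun j _ => hB j)
      _ = 2 * ∑ j, EE (P j) := by rw [Finset.mul_sum]
      _ ≤ _ := by linarith
  have hF2 : EE (fun ε => F ε ^ 2) = EE (fun ε => (Y ε ^ (c + 1)) ^ 2) := rfl
  rw [hF2] at hpoin
  have hFe : EE F = EE (fun ε => Y ε ^ (c + 1)) := rfl
  rw [hFe] at hpoin
  nlinarith [hpoin, hD, hE]

/-- Moments of order `2^(r+1)` of a function on the cube with bounded one-sided gradient. -/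
theorem moment (r : ℕ) : ∃ C : ℝ, 0 ≤ C ∧ ∀ (N : ℕ) (Z : Cube N → ℝ) (v : ℝ), 0 ≤ v →
    (∀ ε, ∑ j, (max (Z (flip j ε) - Z ε) 0) ^ 2 ≤ v) →
    EE (fun ε => (Z ε - EE Z) ^ (2 ^ (r + 1))) ≤ C * v ^ (2 ^ r) := by
  induction r with
  | zero =>
    refine ⟨1 / 2, by norm_num, ?_⟩
    intro N Z v hv hgrad
    have hpoin := poincare N Z
    have h1 : EE (fun ε => (Z ε - EE Z) ^ (2 ^ (0 + 1))) = EE (fun ε => Z ε ^ 2) - (EE Z) ^ 2 := by
      have : (fun ε => (Z ε - EE Z) ^ (2 ^ (0 + 1)))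
          = fun ε => (Z ε ^ 2 - (2 * EE Z) * Z ε) + (EE Z) ^ 2 := by
        funext ε
        norm_num
        ring
      rw [this, EE_add, EE_sub, EE_const, EE_const_mul]
      ring
    have h2 : ∀ j, EE (fun ε => (Z ε - Z (flip j ε)) ^ 2)
        = 2 * EE (fun ε => (max (Z (flip j ε) - Z ε) 0) ^ 2) := by
      intro j
      have e : (fun ε => (Z ε - Z (flip j ε)) ^ 2)
          = fun ε => (max (Z (flip j ε) - Z ε) 0) ^ 2
              + (max (Z (flip j (flip j ε)) - Z (flip j ε)) 0) ^ 2 := by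
        funext ε
        rw [flip_flip]
        rcases le_total (Z ε) (Z (flip j ε)) with hle | hle
        · rw [max_eq_left (by linarith : (0 : ℝ) ≤ Z (flip j ε) - Z ε),
            max_eq_right (by linarith : Z ε - Z (flip j ε) ≤ 0)]
          ring
        · rw [max_eq_right (by linarith : Z (flip j ε) - Z ε ≤ 0),
            max_eq_left (by linarith : (0 : ℝ) ≤ Z ε - Z (flip j ε))]
          ring
      rw [e, EE_add, EE_flip j (fun ε => (max (Z (flip j ε) - Z ε) 0) ^ 2)]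
      ring
    have h3 : ∑ j, EE (fun ε => (max (Z (flip j ε) - Z ε) 0) ^ 2) ≤ v := by
      rw [← EE_sum]
      calc EE (fun ε => ∑ j, (max (Z (flip j ε) - Z ε) 0) ^ 2) ≤ EE (fun _ : Cube N => v) :=
            EE_mono hgrad
        _ = v := EE_const v
    rw [h1]
    simp only [h2] at hpoin
    rw [← Finset.mul_sum] at hpoin
    simp only [pow_zero, pow_one]
    linarith
  | succ r ih =>
    obtain ⟨C, hC0, hC⟩ := ih
    obtain ⟨K, hK0, hK⟩ := moment_step (2 ^ (r + 1) - 1)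
    have hb : 2 ^ (r + 1) - 1 + 1 = 2 ^ (r + 1) := Nat.sub_add_cancel Nat.one_le_two_pow
    rw [hb] at hK
    refine ⟨2 * C ^ 2 + K, by positivity, ?_⟩
    intro N Z v hv hgrad
    have h1 := hC N Z v hv hgrad
    have hgrad' : ∀ ε, ∑ j, (max ((Z (flip j ε) - EE Z) - (Z ε - EE Z)) 0) ^ 2 ≤ v := by
      intro ε
      have := hgrad ε
      simpa using this
    have h2 := hK N (fun ε => Z ε - EE Z) v hv hgrad'
    have h0 : 0 ≤ EE (fun ε => (Z ε - EE Z) ^ (2 ^ (r + 1))) := by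
      apply EE_nonneg
      intro ε
      have : (Z ε - EE Z) ^ (2 ^ (r + 1)) = ((Z ε - EE Z) ^ 2) ^ (2 ^ r) := by
        rw [← pow_mul, pow_succ 2 r, mul_comm]
      rw [this]
      positivity
    have e1 : (fun ε => ((Z ε - EE Z) ^ (2 ^ (r + 1))) ^ 2)
        = fun ε => (Z ε - EE Z) ^ (2 ^ (r + 1 + 1)) := by
      funext ε
      rw [← pow_mul, ← pow_succ]
    rw [e1] at h2
    have h3 : (EE (fun ε => (Z ε - EE Z) ^ (2 ^ (r + 1)))) ^ 2 ≤ (C * v ^ (2 ^ r)) ^ 2 :=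
      pow_le_pow_left₀ h0 h1 2
    have e2 : (C * v ^ (2 ^ r)) ^ 2 = C ^ 2 * v ^ (2 ^ (r + 1)) := by
      rw [mul_pow, ← pow_mul, ← pow_succ]
    rw [e2] at h3
    calc EE (fun ε => (Z ε - EE Z) ^ (2 ^ (r + 1 + 1)))
        ≤ 2 * (EE (fun ε => (Z ε - EE Z) ^ (2 ^ (r + 1)))) ^ 2 + K * v ^ (2 ^ (r + 1)) := h2
      _ ≤ 2 * (C ^ 2 * v ^ (2 ^ (r + 1))) + K * v ^ (2 ^ (r + 1)) := by linarith
      _ = (2 * C ^ 2 + K) * v ^ (2 ^ (r + 1)) := by ring

end Vale.Agent.Lib.P249
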