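import Mathlib
import Vale.Agent.Lib.P249.Moment

/-!
# Real-exponent moment bounds on the cube
-/

namespace Vale.Agent.Lib.P249

open Finset

/-- Jensen's inequality for real powers of cube averages. -/
theorem EE_rpow_le {N : ℕ} (f : Cube N → ℝ) (hf : ∀ ε, 0 ≤ f ε) {t : ℝ} (ht : 1 ≤ t) :
    (EE f) ^ t ≤ EE (fun ε => f ε ^ t) := by
  have h := Real.rpow_arith_mean_le_arith_mean_rpow (Finset.univ : Finset (Cube N))
    (fun _ => ((2 : ℝ) ^ N)⁻¹) f (fun _ _ => by positivity)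
    (by simp [Fintype.card_bool]) (fun ε _ => hf ε) ht
  have e1 : ∑ ε : Cube N, ((2 : ℝ) ^ N)⁻¹ * f ε = EE f := by
    unfold EE
    rw [← Finset.mul_sum, div_eq_inv_mul]
  have e2 : ∑ ε : Cube N, ((2 : ℝ) ^ N)⁻¹ * f ε ^ t = EE (fun ε => f ε ^ t) := by
    unfold EE
    rw [← Finset.mul_sum, div_eq_inv_mul]
  rw [e1, e2] at h
  exact h

/-- Real moments of a function on the cube with bounded one-sided gradient. -/
theorem moment_rpow (p : ℝ) (hp : 0 < p) : ∃ C : ℝ, 0 ≤ C ∧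
    ∀ (N : ℕ) (Z : Cube N → ℝ) (v : ℝ), 0 ≤ v →
    (∀ ε, ∑ j, (max (Z (flip j ε) - Z ε) 0) ^ 2 ≤ v) →
    EE (fun ε => |Z ε - EE Z| ^ p) ≤ C * v ^ (p / 2) := by
  obtain ⟨r, hr⟩ : ∃ r : ℕ, p ≤ (2 : ℝ) ^ (r + 1) := by
    obtain ⟨r, hr⟩ := pow_unbounded_of_one_lt p (by norm_num : (1 : ℝ) < 2)
    refine ⟨r, hr.le.trans ?_⟩
    exact pow_le_pow_right₀ (by norm_num) (Nat.le_succ r)
  obtain ⟨C, hC0, hC⟩ := moment r
  set q : ℝ := (2 : ℝ) ^ (r + 1) with hq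
  have hqpos : 0 < q := by positivity
  refine ⟨C ^ (p / q), Real.rpow_nonneg hC0 _, ?_⟩
  intro N Z v hv hgrad
  have h1 := hC N Z v hv hgrad
  have ht : 1 ≤ q / p := by
    rw [le_div_iff₀ hp]
    linarith
  have hg0 : ∀ ε, 0 ≤ |Z ε - EE Z| ^ p := fun ε => Real.rpow_nonneg (abs_nonneg _) p
  have h2 := EE_rpow_le (fun ε => |Z ε - EE Z| ^ p) hg0 ht
  have e1 : (fun ε => (|Z ε - EE Z| ^ p) ^ (q / p)) = fun ε => (Z ε - EE Z) ^ (2 ^ (r + 1)) := by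
    funext ε
    rw [← Real.rpow_mul (abs_nonneg _)]
    have : p * (q / p) = ((2 ^ (r + 1) : ℕ) : ℝ) := by
      rw [hq]
      push_cast
      field_simp
    rw [this, Real.rpow_natCast]
    have hev : Even (2 ^ (r + 1)) := by
      rw [pow_succ]
      exact even_two.mul_left _
    exact hev.pow_abs _
  rw [e1] at h2
  have h3 : (EE (fun ε => |Z ε - EE Z| ^ p)) ^ (q / p) ≤ C * v ^ (2 ^ r) := h2.trans h1
  have hE0 : 0 ≤ EE (fun ε => |Z ε - EE Z| ^ p) := EE_nonneg hg0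
  have h4 : ((EE (fun ε => |Z ε - EE Z| ^ p)) ^ (q / p)) ^ (p / q) ≤ (C * v ^ (2 ^ r)) ^ (p / q) :=
    Real.rpow_le_rpow (Real.rpow_nonneg hE0 _) h3 (by positivity)
  rw [← Real.rpow_mul hE0] at h4
  have e2 : q / p * (p / q) = 1 := by field_simp
  rw [e2, Real.rpow_one] at h4
  refine h4.trans (le_of_eq ?_)
  rw [Real.mul_rpow hC0 (by positivity)]
  congr 1
  rw [← Real.rpow_natCast, ← Real.rpow_mul hv]
  congr 1
  rw [hq]
  push_cast
  rw [pow_succ]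
  field_simp

end Vale.Agent.Lib.P249
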