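import Mathlib
import Vale.Agent.Lib.P249.MomentR

/-!
# Linear forms on the cube: orthogonality and Khintchine's inequality
-/

namespace Vale.Agent.Lib.P249

open Finset

/-- The sign attached to a bit. -/
def sg (b : Bool) : ℝ := if b then 1 else -1

theorem sg_not (b : Bool) : sg (!b) = - sg b := by
  cases b <;> simp [sg]

theorem sg_sq (b : Bool) : sg b * sg b = 1 := by
  cases b <;> simp [sg]

theorem abs_sg (b : Bool) : |sg b| = 1 := by
  cases b <;> simp [sg]

theorem flip_same {N : ℕ} (j : Fin N) (ε : Cube N) : flip j ε j = !ε j := by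
  simp [flip]

theorem flip_ne {N : ℕ} {i j : Fin N} (h : i ≠ j) (ε : Cube N) : flip j ε i = ε i := by
  simp [flip, Function.update_of_ne h]

theorem EE_sg_mul {N : ℕ} (a b : Fin N) :
    EE (fun ε : Cube N => sg (ε a) * sg (ε b)) = if a = b then 1 else 0 := by
  split_ifs with h
  · subst h
    simp only [sg_sq]
    exact EE_const 1
  · have h1 := EE_flip a (fun ε : Cube N => sg (ε a) * sg (ε b))
    have h2 : (fun ε : Cube N => sg (flip a ε a) * sg (flip a ε b))
        = fun ε => (-1) * (sg (ε a) * sg (ε b)) := by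
      funext ε
      rw [flip_same, flip_ne (Ne.symm h), sg_not]
      ring
    rw [h2, EE_const_mul] at h1
    linarith

theorem EE_sg {N : ℕ} (a : Fin N) : EE (fun ε : Cube N => sg (ε a)) = 0 := by
  have h1 := EE_flip a (fun ε : Cube N => sg (ε a))
  have h2 : (fun ε : Cube N => sg (flip a ε a)) = fun ε => (-1) * sg (ε a) := by
    funext ε
    rw [flip_same, sg_not]
    ring
  rw [h2, EE_const_mul] at h1
  linarith

/-- The linear form with coefficients `z`. -/
noncomputable def lin {N : ℕ} (z : Fin N → ℝ) (ε : Cube N) : ℝ := ∑ i, z i * sg (ε i)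

theorem EE_lin {N : ℕ} (z : Fin N → ℝ) : EE (lin z) = 0 := by
  unfold lin
  rw [EE_sum]
  apply Finset.sum_eq_zero
  intro i _
  rw [EE_const_mul, EE_sg, mul_zero]

theorem EE_lin_sq {N : ℕ} (z : Fin N → ℝ) : EE (fun ε => lin z ε ^ 2) = ∑ i, z i ^ 2 := by
  have e : (fun ε => lin z ε ^ 2)
      = fun ε : Cube N => ∑ i, ∑ j, (z i * z j) * (sg (ε i) * sg (ε j)) := by
    funext ε
    unfold lin
    rw [sq, Finset.sum_mul_sum]
    apply Finset.sum_congr rfl
    intro i _
    apply Finset.sum_congr rfl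
    intro j _
    ring
  rw [e, EE_sum]
  apply Finset.sum_congr rfl
  intro i _
  rw [EE_sum]
  simp only [EE_const_mul, EE_sg_mul]
  simp [sq]

theorem lin_flip {N : ℕ} (z : Fin N → ℝ) (j : Fin N) (ε : Cube N) :
    lin z (flip j ε) - lin z ε = -2 * (z j * sg (ε j)) := by
  unfold lin
  rw [← Finset.sum_sub_distrib]
  rw [Finset.sum_eq_single j]
  · rw [flip_same, sg_not]
    ring
  · intro i _ hij
    rw [flip_ne hij]
    ring
  · intro h
    exact absurd (Finset.mem_univ j) h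

theorem lin_grad {N : ℕ} (z : Fin N → ℝ) (ε : Cube N) :
    ∑ j, (max (lin z (flip j ε) - lin z ε) 0) ^ 2 ≤ 4 * ∑ i, z i ^ 2 := by
  rw [Finset.mul_sum]
  apply Finset.sum_le_sum
  intro j _
  rw [lin_flip]
  have h1 : (max (-2 * (z j * sg (ε j))) 0) ^ 2 ≤ (-2 * (z j * sg (ε j))) ^ 2 := by
    rcases max_cases (-2 * (z j * sg (ε j))) 0 with ⟨h, _⟩ | ⟨h, _⟩
    · rw [h]
    · rw [h]
      nlinarith [sq_nonneg (-2 * (z j * sg (ε j)))]
  refine h1.trans (le_of_eq ?_)
  have := sg_sq (ε j)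
  calc (-2 * (z j * sg (ε j))) ^ 2 = 4 * z j ^ 2 * (sg (ε j) * sg (ε j)) := by ring
    _ = 4 * z j ^ 2 := by rw [this, mul_one]

/-- Khintchine's inequality, upper bound. -/
theorem khintchine_upper (p : ℝ) (hp : 0 < p) : ∃ B : ℝ, 0 < B ∧
    ∀ (N : ℕ) (z : Fin N → ℝ), EE (fun ε => |lin z ε| ^ p) ≤ B * (∑ i, z i ^ 2) ^ (p / 2) := by
  obtain ⟨C, hC0, hC⟩ := moment_rpow p hp
  refine ⟨(C + 1) * 4 ^ (p / 2), by positivity, ?_⟩
  intro N z
  have hs : 0 ≤ ∑ i, z i ^ 2 := Finset.sum_nonneg (fun i _ => sq_nonneg _)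
  have h := hC N (lin z) (4 * ∑ i, z i ^ 2) (by positivity) (lin_grad z)
  rw [EE_lin] at h
  simp only [sub_zero] at h
  refine h.trans ?_
  rw [Real.mul_rpow (by norm_num) hs]
  have : 0 ≤ (4 : ℝ) ^ (p / 2) * (∑ i, z i ^ 2) ^ (p / 2) := by positivity
  nlinarith

/-- Khintchine's inequality, lower bound for `p ≥ 2`. -/
theorem khintchine_lower (p : ℝ) (hp : 2 ≤ p) {N : ℕ} (z : Fin N → ℝ) :
    (∑ i, z i ^ 2) ^ (p / 2) ≤ EE (fun ε => |lin z ε| ^ p) := by
  have h := EE_rpow_le (fun ε => lin z ε ^ 2) (fun ε => sq_nonneg _) (t := p / 2) (by linarith)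
  rw [EE_lin_sq] at h
  refine h.trans (le_of_eq ?_)
  congr 1
  funext ε
  rw [← sq_abs, ← Real.rpow_natCast, ← Real.rpow_mul (abs_nonneg _)]
  congr 1
  push_cast
  ring

end Vale.Agent.Lib.P249
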