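import Mathlib
import Vale.Agent.Lib.P249.Lin

/-!
# Row sums on the cube and regularisation by infimal convolution
-/

namespace Vale.Agent.Lib.P249

open Finset

/-- Row sums of a `k × M` array of signs. -/
noncomputable def Srow {k M : ℕ} (ε : Cube (k * M)) (i : Fin k) : ℝ :=
  ∑ l : Fin M, sg (ε (finProdFinEquiv (i, l)))

/-- Squared Euclidean distance of the row-sum vectors. -/
noncomputable def sqd {k M : ℕ} (ε η : Cube (k * M)) : ℝ := ∑ i, (Srow ε i - Srow η i) ^ 2

theorem sqd_nonneg {k M : ℕ} (ε η : Cube (k * M)) : 0 ≤ sqd ε η :=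
  Finset.sum_nonneg (fun _ _ => sq_nonneg _)

theorem sqd_self {k M : ℕ} (ε : Cube (k * M)) : sqd ε ε = 0 := by
  simp [sqd]

theorem Srow_flip {k M : ℕ} (ε : Cube (k * M)) (i : Fin k) (l : Fin M) (i' : Fin k) :
    Srow (flip (finProdFinEquiv (i, l)) ε) i'
      = Srow ε i' + (if i' = i then -2 * sg (ε (finProdFinEquiv (i, l))) else 0) := by
  unfold Srow
  split_ifs with h
  · subst h
    have : ∑ l' : Fin M, sg (flip (finProdFinEquiv (i', l)) ε (finProdFinEquiv (i', l')))
        - ∑ l' : Fin M, sg (ε (finProdFinEquiv (i', l'))) = -2 * sg (ε (finProdFinEquiv (i', l))) := by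
      rw [← Finset.sum_sub_distrib, Finset.sum_eq_single l]
      · rw [flip_same, sg_not]
        ring
      · intro l' _ hl
        rw [flip_ne]
        · ring
        · intro hcontra
          have := finProdFinEquiv.injective hcontra
          simp only [Prod.mk.injEq, true_and] at this
          exact hl this
      · intro hl
        exact absurd (Finset.mem_univ l) hl
    linarith
  · rw [add_zero]
    apply Finset.sum_congr rfl
    intro l' _
    rw [flip_ne]
    intro hcontra
    have := finProdFinEquiv.injective hcontra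
    simp only [Prod.mk.injEq] at this
    exact h this.1

theorem sqd_flip {k M : ℕ} (ε η : Cube (k * M)) (i : Fin k) (l : Fin M) :
    sqd (flip (finProdFinEquiv (i, l)) ε) η ≤ sqd ε η + 4 * |Srow ε i - Srow η i| + 4 := by
  unfold sqd
  set c : ℝ := -2 * sg (ε (finProdFinEquiv (i, l))) with hc
  have hc2 : c ^ 2 = 4 := by
    rw [hc]
    have := sg_sq (ε (finProdFinEquiv (i, l)))
    nlinarith
  have hcabs : |c| = 2 := by
    rw [hc, abs_mul, abs_sg]
    norm_num
  have e : ∑ i', (Srow (flip (finProdFinEquiv (i, l)) ε) i' - Srow η i') ^ 2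
      = ∑ i', ((Srow ε i' - Srow η i') ^ 2
          + (if i' = i then 2 * c * (Srow ε i - Srow η i) + c ^ 2 else 0)) := by
    apply Finset.sum_congr rfl
    intro i' _
    rw [Srow_flip]
    split_ifs with h
    · subst h
      ring
    · ring
  rw [e, Finset.sum_add_distrib]
  simp only [Finset.sum_ite_eq', Finset.mem_univ, if_true]
  rw [hc2]
  have h1 : 2 * c * (Srow ε i - Srow η i) ≤ 4 * |Srow ε i - Srow η i| := by
    have h2 : c * (Srow ε i - Srow η i) ≤ |c| * |Srow ε i - Srow η i| := by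
      rw [← abs_mul]
      exact le_abs_self _
    rw [hcabs] at h2
    linarith
  linarith

theorem sum_cube_index {k M : ℕ} (g : Fin (k * M) → ℝ) :
    ∑ t, g t = ∑ i : Fin k, ∑ l : Fin M, g (finProdFinEquiv (i, l)) := by
  rw [← Fintype.sum_prod_type']
  exact (Fintype.sum_equiv finProdFinEquiv _ _ (fun _ => rfl)).symm

/-- Regularisation: a function that is Lipschitz for the Euclidean distance of row sums is
uniformly close to a function with bounded one-sided gradient. -/
theorem infconv {k M : ℕ} (hk : 1 ≤ k) (G : Cube (k * M) → ℝ) (L : ℝ) (hL : 0 < L)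
    (hG : ∀ ε η, |G ε - G η| ≤ L * Real.sqrt (sqd ε η)) :
    ∃ H : Cube (k * M) → ℝ, (∀ ε, |G ε - H ε| ≤ L * Real.sqrt k / 2) ∧
      ∀ ε, ∑ t, (max (H (flip t ε) - H ε) 0) ^ 2 ≤ 40 * M * L ^ 2 := by
  have hk0 : (0 : ℝ) < k := by exact_mod_cast hk
  set ρ : ℝ := Real.sqrt k / L with hρ
  have hsk : 0 < Real.sqrt k := Real.sqrt_pos.mpr hk0
  have hρpos : 0 < ρ := by positivity
  have hρ2 : ρ ^ 2 = k / L ^ 2 := by
    rw [hρ, div_pow, Real.sq_sqrt hk0.le]
  have hLρ : L * ρ = Real.sqrt k := by
    rw [hρ]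
    field_simp
  set val : Cube (k * M) → Cube (k * M) → ℝ := fun ε η => G η + sqd ε η / (2 * ρ) with hval
  set H : Cube (k * M) → ℝ := fun ε =>
    (Finset.univ : Finset (Cube (k * M))).inf' ⟨ε, Finset.mem_univ ε⟩ (val ε) with hH
  have hHle : ∀ ε η, H ε ≤ val ε η := fun ε η => Finset.inf'_le _ (Finset.mem_univ η)
  have hHex : ∀ ε, ∃ η, H ε = val ε η := by
    intro ε
    obtain ⟨η, _, h⟩ := Finset.exists_mem_eq_inf' (s := (Finset.univ : Finset (Cube (k * M))))
      ⟨ε, Finset.mem_univ ε⟩ (val ε)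
    exact ⟨η, h⟩
  have hHG : ∀ ε, H ε ≤ G ε := by
    intro ε
    have := hHle ε ε
    simp only [hval, sqd_self, zero_div, add_zero] at this
    exact this
  refine ⟨H, ?_, ?_⟩
  · intro ε
    obtain ⟨η, hη⟩ := hHex ε
    set r := Real.sqrt (sqd ε η) with hr
    have hr0 : 0 ≤ r := Real.sqrt_nonneg _
    have hr2 : r ^ 2 = sqd ε η := Real.sq_sqrt (sqd_nonneg _ _)
    have h1 := hG ε η
    rw [← hr, abs_le] at h1
    have h2 : H ε = G η + r ^ 2 / (2 * ρ) := by rw [hη, hr2]
    have h3 : 0 ≤ (r - L * ρ) ^ 2 / (2 * ρ) := by positivity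
    have h4 : (r - L * ρ) ^ 2 / (2 * ρ) = r ^ 2 / (2 * ρ) - L * r + L * (L * ρ) / 2 := by
      field_simp
      ring
    rw [hLρ] at h4 h3
    rw [abs_le]
    constructor
    · have := hHG ε
      have : 0 ≤ L * Real.sqrt k / 2 := by positivity
      linarith [hHG ε]
    · linarith [h1.2]
  · intro ε
    obtain ⟨η, hη⟩ := hHex ε
    set r := Real.sqrt (sqd ε η) with hr
    have hr0 : 0 ≤ r := Real.sqrt_nonneg _
    have hr2 : r ^ 2 = sqd ε η := Real.sq_sqrt (sqd_nonneg _ _)
    have h1 := hG ε η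
    rw [← hr, abs_le] at h1
    have h2 : G η + r ^ 2 / (2 * ρ) ≤ G ε := by
      have := hHG ε
      rw [hη] at this
      simp only [hval] at this
      rw [hr2]
      exact this
    have h3 : r ^ 2 ≤ 2 * ρ * (L * r) := by
      have : r ^ 2 / (2 * ρ) ≤ L * r := by linarith [h1.2]
      rw [div_le_iff₀ (by positivity)] at this
      linarith
    have h4 : r ≤ 2 * Real.sqrt k := by
      rcases hr0.eq_or_lt with h0 | hpos
      · rw [← h0]
        positivity
      · have : r * r ≤ (2 * (L * ρ)) * r := by nlinarith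
        have := le_of_mul_le_mul_right this hpos
        rw [hLρ] at this
        exact this
    have h5 : sqd ε η ≤ 4 * k := by
      rw [← hr2]
      have : r ^ 2 ≤ (2 * Real.sqrt k) ^ 2 := pow_le_pow_left₀ hr0 h4 2
      rw [mul_pow, Real.sq_sqrt hk0.le] at this
      linarith
    have h6 : ∀ i l, (max (H (flip (finProdFinEquiv (i, l)) ε) - H ε) 0) ^ 2
        ≤ (8 * (Srow ε i - Srow η i) ^ 2 + 8) / ρ ^ 2 := by
      intro i l
      set a := |Srow ε i - Srow η i| with ha
      have ha0 : 0 ≤ a := abs_nonneg _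
      have ha2 : a ^ 2 = (Srow ε i - Srow η i) ^ 2 := sq_abs _
      have h7 : H (flip (finProdFinEquiv (i, l)) ε) - H ε ≤ (2 * a + 2) / ρ := by
        have h8 := hHle (flip (finProdFinEquiv (i, l)) ε) η
        rw [hη]
        simp only [hval] at h8 ⊢
        have h9 := sqd_flip ε η i l
        have h10 : sqd (flip (finProdFinEquiv (i, l)) ε) η / (2 * ρ)
            ≤ (sqd ε η + 4 * a + 4) / (2 * ρ) :=
          div_le_div_of_nonneg_right h9 (by positivity)
        have h11 : (sqd ε η + 4 * a + 4) / (2 * ρ) = sqd ε η / (2 * ρ) + (2 * a + 2) / ρ := by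
          field_simp
          ring
        linarith
      have h12 : max (H (flip (finProdFinEquiv (i, l)) ε) - H ε) 0 ≤ (2 * a + 2) / ρ :=
        max_le h7 (by positivity)
      have h13 : (max (H (flip (finProdFinEquiv (i, l)) ε) - H ε) 0) ^ 2 ≤ ((2 * a + 2) / ρ) ^ 2 :=
        pow_le_pow_left₀ (le_max_right _ _) h12 2
      refine h13.trans ?_
      rw [div_pow]
      apply div_le_div_of_nonneg_right _ (by positivity)
      rw [← ha2]
      nlinarith [sq_nonneg (a - 1)]
    rw [sum_cube_index]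
    calc ∑ i : Fin k, ∑ l : Fin M, (max (H (flip (finProdFinEquiv (i, l)) ε) - H ε) 0) ^ 2
        ≤ ∑ i : Fin k, ∑ _l : Fin M, (8 * (Srow ε i - Srow η i) ^ 2 + 8) / ρ ^ 2 :=
          Finset.sum_le_sum (fun i _ => Finset.sum_le_sum (fun l _ => h6 i l))
      _ = M * ((8 * sqd ε η + 8 * k) / ρ ^ 2) := by
          simp only [Finset.sum_const, Finset.card_univ, Fintype.card_fin, nsmul_eq_mul]
          rw [← Finset.mul_sum, ← Finset.sum_div, Finset.sum_add_distrib, ← Finset.mul_sum]
          simp [sqd, mul_comm]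
      _ ≤ M * ((8 * (4 * k) + 8 * k) / ρ ^ 2) := by
          apply mul_le_mul_of_nonneg_left _ (Nat.cast_nonneg M)
          apply div_le_div_of_nonneg_right _ (by positivity)
          linarith
      _ = 40 * M * L ^ 2 := by
          rw [hρ2]
          field_simp
          ring

end Vale.Agent.Lib.P249
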