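import Mathlib
import Vale.Agent.Lib.P249.InfConv
import Vale.Agent.Lib.P249.Sens

/-!
# The core of the lower bound: few Lipschitz coordinates cannot separate antipodal points
-/

namespace Vale.Agent.Lib.P249

open Finset

/-- The antipodal map of the cube. -/
def neg {N : ℕ} (ε : Cube N) : Cube N := fun t => !ε t

theorem neg_neg' {N : ℕ} (ε : Cube N) : neg (neg ε) = ε := by
  funext t
  simp [neg]

/-- The antipodal map as an equivalence. -/
def negEquiv {N : ℕ} : Cube N ≃ Cube N where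
  toFun := neg
  invFun := neg
  left_inv := neg_neg'
  right_inv := neg_neg'

theorem EE_neg {N : ℕ} (f : Cube N → ℝ) : EE (fun ε => f (neg ε)) = EE f := by
  unfold EE
  congr 1
  exact Fintype.sum_equiv negEquiv _ _ (fun _ => rfl)

theorem Srow_neg {k M : ℕ} (ε : Cube (k * M)) (i : Fin k) : Srow (neg ε) i = - Srow ε i := by
  unfold Srow neg
  rw [← Finset.sum_neg_distrib]
  apply Finset.sum_congr rfl
  intro l _
  exact sg_not _

theorem sqd_neg {k M : ℕ} (ε : Cube (k * M)) : sqd ε (neg ε) = 4 * ∑ i, Srow ε i ^ 2 := by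
  unfold sqd
  rw [Finset.mul_sum]
  apply Finset.sum_congr rfl
  intro i _
  rw [Srow_neg]
  ring

theorem EE_Srow_sq {k M : ℕ} (i : Fin k) : EE (fun ε : Cube (k * M) => Srow ε i ^ 2) = M := by
  have e : (fun ε : Cube (k * M) => Srow ε i ^ 2)
      = fun ε => ∑ l : Fin M, ∑ l' : Fin M,
          sg (ε (finProdFinEquiv (i, l))) * sg (ε (finProdFinEquiv (i, l'))) := by
    funext ε
    unfold Srow
    rw [sq, Finset.sum_mul_sum]
  rw [e, EE_sum]
  have : ∀ l : Fin M, EE (fun ε : Cube (k * M) => ∑ l' : Fin M,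
      sg (ε (finProdFinEquiv (i, l))) * sg (ε (finProdFinEquiv (i, l')))) = 1 := by
    intro l
    rw [EE_sum]
    simp only [EE_sg_mul]
    rw [Finset.sum_eq_single l]
    · simp
    · intro l' _ hl
      rw [if_neg]
      intro hcontra
      have := finProdFinEquiv.injective hcontra
      simp only [Prod.mk.injEq, true_and] at this
      exact hl this.symm
    · intro hl
      exact absurd (Finset.mem_univ l) hl
  simp [this]

theorem EE_sqd_neg {k M : ℕ} : EE (fun ε : Cube (k * M) => sqd ε (neg ε)) = 4 * (k * M) := by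
  simp only [sqd_neg]
  rw [EE_const_mul, EE_sum]
  simp [EE_Srow_sq]

theorem lower_core (p : ℝ) (hp : 2 ≤ p) : ∃ c : ℝ, 0 < c ∧
    ∀ (k : ℕ), 1 ≤ k → ∀ (d : ℕ) (G : Fin d → Cube (k * k) → ℝ) (L a : ℝ), 0 < L → 0 ≤ a →
      (∀ j ε η, |G j ε - G j η| ≤ L * Real.sqrt (sqd ε η)) →
      (∀ ε, a ^ p * (sqd ε (neg ε)) ^ (p / 2) ≤ ∑ j, |G j ε - G j (neg ε)| ^ p) →
      c * (a / L) ^ p * (k : ℝ) ^ (p / 2) ≤ d := by
  have hp0 : 0 < p := by linarith
  have hp1 : 1 ≤ p := by linarith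
  obtain ⟨C, hC0, hC⟩ := moment_rpow p hp0
  set K : ℝ := 2 ^ p * 2 ^ (p - 1) * ((1 / 2) ^ p + C * 40 ^ (p / 2)) with hK
  have hKpos : 0 < K := by positivity
  refine ⟨2 ^ p / K, by positivity, ?_⟩
  intro k hk d G L a hL ha hLip hsep
  have hk0 : (0 : ℝ) < k := by exact_mod_cast hk
  -- the lower estimate
  have h1 : (4 * ((k : ℝ) * k)) ^ (p / 2) ≤ EE (fun ε : Cube (k * k) => (sqd ε (neg ε)) ^ (p / 2)) := by
    have := EE_rpow_le (fun ε : Cube (k * k) => sqd ε (neg ε)) (fun ε => sqd_nonneg _ _)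
      (t := p / 2) (by linarith)
    rw [EE_sqd_neg] at this
    exact this
  have e1 : (4 * ((k : ℝ) * k)) ^ (p / 2) = 2 ^ p * (k : ℝ) ^ p := by
    have : 4 * ((k : ℝ) * k) = (2 * k) ^ (2 : ℝ) := by
      rw [Real.rpow_two]
      ring
    rw [this, ← Real.rpow_mul (by positivity), Real.mul_rpow (by norm_num) hk0.le]
    congr 2 <;> ring
  rw [e1] at h1
  have h2 : a ^ p * EE (fun ε : Cube (k * k) => (sqd ε (neg ε)) ^ (p / 2))
      ≤ ∑ j, EE (fun ε => |G j ε - G j (neg ε)| ^ p) := by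
    rw [← EE_const_mul, ← EE_sum]
    exact EE_mono hsep
  -- the upper estimate
  have h3 : ∀ j, EE (fun ε => |G j ε - G j (neg ε)| ^ p) ≤ K * (L ^ p * (k : ℝ) ^ (p / 2)) := by
    intro j
    obtain ⟨H, hH1, hH2⟩ := infconv hk (G j) L hL (hLip j)
    set m := EE H with hm
    have h4 := hC (k * k) H (40 * k * L ^ 2) (by positivity) hH2
    have e2 : (40 * (k : ℝ) * L ^ 2) ^ (p / 2) = 40 ^ (p / 2) * ((k : ℝ) ^ (p / 2) * L ^ p) := by
      rw [mul_assoc, Real.mul_rpow (by norm_num) (by positivity),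
        Real.mul_rpow hk0.le (by positivity)]
      congr 2
      rw [← Real.rpow_natCast, ← Real.rpow_mul hL.le]
      congr 1
      push_cast
      ring
    rw [e2] at h4
    have e3 : (L * Real.sqrt k / 2) ^ p = (1 / 2) ^ p * ((k : ℝ) ^ (p / 2) * L ^ p) := by
      have : L * Real.sqrt k / 2 = (1 / 2) * (Real.sqrt k * L) := by ring
      rw [this, Real.mul_rpow (by norm_num) (by positivity),
        Real.mul_rpow (Real.sqrt_nonneg _) hL.le]
      congr 2
      rw [Real.sqrt_eq_rpow, ← Real.rpow_mul hk0.le]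
      congr 1
      ring
    have h5 : EE (fun ε => |G j ε - m| ^ p)
        ≤ 2 ^ (p - 1) * (((1 / 2) ^ p + C * 40 ^ (p / 2)) * ((k : ℝ) ^ (p / 2) * L ^ p)) := by
      calc EE (fun ε => |G j ε - m| ^ p)
          ≤ EE (fun ε => 2 ^ (p - 1) * ((L * Real.sqrt k / 2) ^ p + |H ε - m| ^ p)) := by
            apply EE_mono
            intro ε
            have h6 := abs_sub_rpow_le p hp1 (G j ε) m (H ε)
            refine h6.trans ?_
            apply mul_le_mul_of_nonneg_left _ (by positivity)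
            have h7 : |G j ε - H ε| ^ p ≤ (L * Real.sqrt k / 2) ^ p :=
              Real.rpow_le_rpow (abs_nonneg _) (hH1 ε) hp0.le
            rw [abs_sub_comm m (H ε)]
            linarith
        _ = 2 ^ (p - 1) * ((L * Real.sqrt k / 2) ^ p + EE (fun ε => |H ε - m| ^ p)) := by
            rw [EE_const_mul, EE_add, EE_const]
        _ ≤ 2 ^ (p - 1) * ((1 / 2) ^ p * ((k : ℝ) ^ (p / 2) * L ^ p)
              + C * (40 ^ (p / 2) * ((k : ℝ) ^ (p / 2) * L ^ p))) := by
            apply mul_le_mul_of_nonneg_left _ (by positivity)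
            rw [e3]
            linarith
        _ = _ := by ring
    calc EE (fun ε => |G j ε - G j (neg ε)| ^ p)
        ≤ EE (fun ε => 2 ^ (p - 1) * (|G j ε - m| ^ p + |G j (neg ε) - m| ^ p)) :=
          EE_mono (fun ε => abs_sub_rpow_le p hp1 _ _ _)
      _ = 2 ^ (p - 1) * (2 * EE (fun ε => |G j ε - m| ^ p)) := by
          rw [EE_const_mul, EE_add, EE_neg (fun ε => |G j ε - m| ^ p)]
          ring
      _ ≤ 2 ^ (p - 1) * (2 * (2 ^ (p - 1) * (((1 / 2) ^ p + C * 40 ^ (p / 2))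
            * ((k : ℝ) ^ (p / 2) * L ^ p)))) := by
          apply mul_le_mul_of_nonneg_left _ (by positivity)
          linarith
      _ = K * (L ^ p * (k : ℝ) ^ (p / 2)) := by
          rw [hK]
          have : (2 : ℝ) ^ p = 2 ^ (p - 1) * 2 := by
            rw [Real.rpow_sub_one (by norm_num)]
            field_simp
          rw [this]
          ring
  have h8 : ∑ j : Fin d, EE (fun ε => |G j ε - G j (neg ε)| ^ p)
      ≤ d * (K * (L ^ p * (k : ℝ) ^ (p / 2))) := by
    calc ∑ j : Fin d, EE (fun ε => |G j ε - G j (neg ε)| ^ p)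
        ≤ ∑ _j : Fin d, K * (L ^ p * (k : ℝ) ^ (p / 2)) := Finset.sum_le_sum (fun j _ => h3 j)
      _ = d * (K * (L ^ p * (k : ℝ) ^ (p / 2))) := by simp
  have hap : 0 ≤ a ^ p := Real.rpow_nonneg ha p
  have h9 : a ^ p * (2 ^ p * (k : ℝ) ^ p) ≤ d * (K * (L ^ p * (k : ℝ) ^ (p / 2))) :=
    (mul_le_mul_of_nonneg_left h1 hap).trans (h2.trans h8)
  have hLp : 0 < L ^ p := Real.rpow_pos_of_pos hL p
  have hkp : 0 < (k : ℝ) ^ (p / 2) := Real.rpow_pos_of_pos hk0 _
  have e4 : (k : ℝ) ^ p = (k : ℝ) ^ (p / 2) * (k : ℝ) ^ (p / 2) := by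
    rw [← Real.rpow_add hk0]
    congr 1
    ring
  rw [e4] at h9
  rw [Real.div_rpow ha hL.le]
  have h10 : 2 ^ p / K * (a ^ p / L ^ p) * (k : ℝ) ^ (p / 2)
      = (a ^ p * (2 ^ p * ((k : ℝ) ^ (p / 2) * (k : ℝ) ^ (p / 2)))) / (K * (L ^ p * (k : ℝ) ^ (p / 2))) := by
    field_simp
  rw [h10, div_le_iff₀ (by positivity)]
  exact h9

end Vale.Agent.Lib.P249
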