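import Mathlib

/-!
# Choice of the grid parameter in terms of `log n`
-/

namespace Vale.Agent.Lib.P249

theorem choose_k (n : ℕ) (hn : 3 ≤ n) : ∃ k : ℕ, 1 ≤ k ∧ (k + 1) ^ k ≤ n ∧
    Real.log n / Real.log (Real.log n + 2) ≤ 2 * (k : ℝ) := by
  have hnR : (3 : ℝ) ≤ (n : ℝ) := by exact_mod_cast hn
  have hnpos : (0 : ℝ) < (n : ℝ) := by linarith
  set ℓ : ℝ := Real.log n with hℓ
  have hℓ1 : 1 ≤ ℓ := by
    have h1 : Real.exp 1 ≤ (n : ℝ) := by
      have := Real.exp_one_lt_d9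
      linarith
    have := Real.log_le_log (Real.exp_pos 1) h1
    rwa [Real.log_exp] at this
  have hlog1 : 1 ≤ Real.log (ℓ + 2) := by
    have h1 : Real.exp 1 ≤ ℓ + 2 := by
      have := Real.exp_one_lt_d9
      linarith
    have := Real.log_le_log (Real.exp_pos 1) h1
    rwa [Real.log_exp] at this
  have hlogpos : 0 < Real.log (ℓ + 2) := by linarith
  set q : ℝ := ℓ / Real.log (ℓ + 2) with hq
  have hq0 : 0 ≤ q := by positivity
  have hqℓ : q ≤ ℓ := by
    rw [hq, div_le_iff₀ hlogpos]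
    nlinarith
  by_cases hfl : ⌊q⌋₊ = 0
  · refine ⟨1, le_refl 1, by norm_num; omega, ?_⟩
    have : q < 1 := by
      have := Nat.lt_floor_add_one q
      rw [hfl] at this
      simpa using this
    push_cast
    linarith
  · set k : ℕ := ⌊q⌋₊ with hk
    have hk1 : 1 ≤ k := Nat.one_le_iff_ne_zero.mpr hfl
    have hkq : (k : ℝ) ≤ q := Nat.floor_le hq0
    refine ⟨k, hk1, ?_, ?_⟩
    · have hk1R : (1 : ℝ) ≤ (k : ℝ) := by exact_mod_cast hk1
      have h1 : Real.log ((k : ℝ) + 1) ≤ Real.log (ℓ + 2) :=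
        Real.log_le_log (by positivity) (by linarith)
      have h0 : 0 ≤ Real.log ((k : ℝ) + 1) := Real.log_nonneg (by linarith)
      have h2 : (k : ℝ) * Real.log ((k : ℝ) + 1) ≤ ℓ := by
        calc (k : ℝ) * Real.log ((k : ℝ) + 1) ≤ q * Real.log (ℓ + 2) :=
              mul_le_mul hkq h1 h0 hq0
          _ = ℓ := by rw [hq]; field_simp
      have h3 : Real.log (((k : ℝ) + 1) ^ k) ≤ Real.log n := by
        rw [Real.log_pow]
        exact h2
      have h4 : ((k : ℝ) + 1) ^ k ≤ (n : ℝ) :=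
        (Real.log_le_log_iff (by positivity) hnpos).mp h3
      exact_mod_cast h4
    · have h5 := Nat.lt_floor_add_one q
      rw [← hk] at h5
      have hk1R : (1 : ℝ) ≤ (k : ℝ) := by exact_mod_cast hk1
      linarith

end Vale.Agent.Lib.P249
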