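import Mathlib

/-! Choice of the numerical parameters `L`, `T`. -/

namespace Vale.Agent.Lib.P249

theorem choose_params (p : ℝ) (hp : 1 ≤ p) (ε : ℝ) (hε0 : 0 < ε) (n : ℕ) (hn : 2 ≤ n) :
    ∃ L T : ℕ, 1 ≤ L ∧ n ≤ 2 ^ L ∧
      2 * ((n : ℝ) ^ 2) * Real.exp (-(ε ^ 2 * T /
        (4 * (3 * (2 ^ (p - 1) * (2 * (L : ℝ)) ^ p) * ((n : ℝ) * (1 + Real.log n)))))) < 1 ∧
      (T : ℝ) ≤ (108 * 2 ^ (p - 1) * 6 ^ p / ε ^ 2 + 2 ^ (p + 2)) * n * (Real.log n) ^ (p + 2) := by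
  have hp0 : 0 < p := by linarith
  have hnR : (2 : ℝ) ≤ (n : ℝ) := by exact_mod_cast hn
  have hnpos : (0 : ℝ) < (n : ℝ) := by linarith
  set l : ℝ := Real.log n with hl
  have hlog2 : (0.6931471803 : ℝ) < Real.log 2 := Real.log_two_gt_d9
  have hl2 : Real.log 2 ≤ l := Real.log_le_log (by norm_num) hnR
  have hlpos : 0 < l := by linarith
  set L : ℕ := Nat.clog 2 n with hLdef
  have hL1 : 1 ≤ L := Nat.clog_pos (by norm_num) hn
  have hL : n ≤ 2 ^ L := Nat.le_pow_clog (by norm_num) n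
  have hLup : (L : ℝ) ≤ 3 * l := by
    have h1 : 2 ^ (L.pred) < n := Nat.pow_pred_clog_lt_self (by norm_num) (by omega)
    have h2 : ((2 : ℝ) ^ (L.pred)) < (n : ℝ) := by exact_mod_cast h1
    have h3 : Real.log ((2 : ℝ) ^ (L.pred)) < l := Real.log_lt_log (by positivity) h2
    rw [Real.log_pow] at h3
    have h4 : ((L.pred : ℕ) : ℝ) = (L : ℝ) - 1 := by
      have : L.pred + 1 = L := by
        rw [Nat.pred_eq_sub_one]; omega
      have h5 : ((L.pred + 1 : ℕ) : ℝ) = (L : ℝ) := by exact_mod_cast this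
      push_cast at h5
      linarith
    rw [h4] at h3
    have hLr : (1 : ℝ) ≤ (L : ℝ) := by exact_mod_cast hL1
    nlinarith
  have hLr : (1 : ℝ) ≤ (L : ℝ) := by exact_mod_cast hL1
  set B : ℝ := 3 * (2 ^ (p - 1) * (2 * (L : ℝ)) ^ p) * ((n : ℝ) * (1 + l)) with hB
  have hBpos : 0 < B := by positivity
  have hBle : B ≤ 9 * 2 ^ (p - 1) * 6 ^ p * n * (l ^ p * l) := by
    have h1 : (2 * (L : ℝ)) ^ p ≤ 6 ^ p * l ^ p := by
      rw [← Real.mul_rpow (by norm_num) hlpos.le]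
      apply Real.rpow_le_rpow (by positivity) _ hp0.le
      linarith
    have h2 : 1 + l ≤ 3 * l := by linarith
    have h3 : (0 : ℝ) < 2 ^ (p - 1) := by positivity
    have h4 : (0 : ℝ) < 6 ^ p * l ^ p := by positivity
    calc B ≤ 3 * (2 ^ (p - 1) * (6 ^ p * l ^ p)) * ((n : ℝ) * (3 * l)) := by
          rw [hB]
          gcongr
      _ = 9 * 2 ^ (p - 1) * 6 ^ p * n * (l ^ p * l) := by ring
  set T : ℕ := ⌊12 * B * l / ε ^ 2⌋₊ + 1 with hT
  have hq0 : 0 ≤ 12 * B * l / ε ^ 2 := by positivity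
  have hTlt : 12 * B * l / ε ^ 2 < (T : ℝ) := by
    rw [hT]; push_cast
    exact Nat.lt_floor_add_one _
  have hTle : (T : ℝ) ≤ 12 * B * l / ε ^ 2 + 1 := by
    rw [hT]; push_cast
    have := Nat.floor_le hq0
    linarith
  refine ⟨L, T, hL1, hL, ?_, ?_⟩
  · change 2 * ((n : ℝ) ^ 2) * Real.exp (-(ε ^ 2 * T / (4 * B))) < 1
    have h1 : 3 * l < ε ^ 2 * T / (4 * B) := by
      rw [lt_div_iff₀ (by positivity)]
      have h2 : 12 * B * l < T * ε ^ 2 := by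
        rwa [div_lt_iff₀ (by positivity)] at hTlt
      nlinarith
    have h2 : Real.exp (-(ε ^ 2 * T / (4 * B))) < Real.exp (-(3 * l)) := by
      apply Real.exp_lt_exp.mpr
      linarith
    have h3 : Real.exp (3 * l) = (n : ℝ) ^ 3 := by
      have : 3 * l = l + l + l := by ring
      rw [this, Real.exp_add, Real.exp_add, hl, Real.exp_log hnpos]
      ring
    have h4 : Real.exp (-(3 * l)) = 1 / (n : ℝ) ^ 3 := by
      rw [Real.exp_neg, h3, one_div]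
    rw [h4] at h2
    have h5 : 2 * ((n : ℝ) ^ 2) * (1 / (n : ℝ) ^ 3) ≤ 1 := by
      have : 2 * ((n : ℝ) ^ 2) * (1 / (n : ℝ) ^ 3) = 2 / n := by
        field_simp
      rw [this, div_le_one hnpos]
      exact hnR
    have h6 : 0 < 2 * ((n : ℝ) ^ 2) := by positivity
    calc _ < 2 * ((n : ℝ) ^ 2) * (1 / (n : ℝ) ^ 3) := mul_lt_mul_of_pos_left h2 h6
      _ ≤ 1 := h5
  · have hlp2 : l ^ (p + 2) = l ^ p * l * l := by
      rw [Real.rpow_add hlpos, Real.rpow_two]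
      ring
    have h1 : 12 * B * l / ε ^ 2 ≤ (108 * 2 ^ (p - 1) * 6 ^ p / ε ^ 2) * n * l ^ (p + 2) := by
      rw [hlp2]
      have : 12 * B * l / ε ^ 2 ≤ 12 * (9 * 2 ^ (p - 1) * 6 ^ p * n * (l ^ p * l)) * l / ε ^ 2 := by
        gcongr
      refine le_trans this (le_of_eq ?_)
      ring
    have h2 : 1 ≤ 2 ^ (p + 2) * (n : ℝ) * l ^ (p + 2) := by
      have h3 : 1 ≤ (2 * l) ^ (p + 2) := Real.one_le_rpow (by linarith) (by linarith)
      rw [Real.mul_rpow (by norm_num) hlpos.le] at h3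
      have h4 : (0 : ℝ) ≤ 2 ^ (p + 2) * l ^ (p + 2) := by positivity
      nlinarith
    calc (T : ℝ) ≤ 12 * B * l / ε ^ 2 + 1 := hTle
      _ ≤ (108 * 2 ^ (p - 1) * 6 ^ p / ε ^ 2) * n * l ^ (p + 2) + 2 ^ (p + 2) * (n : ℝ) * l ^ (p + 2) := by
          linarith
      _ = _ := by ring

end Vale.Agent.Lib.P249
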