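import Mathlib
import Vale.Agent.Lib.P249.Core
import Vale.Agent.Lib.P249.Params

/-! Passage from coordinates to `PiLp` norms. -/

namespace Vale.Agent.Lib.P249

open Finset

theorem norm_rpow_eq (p : ℝ) (hp : 1 ≤ p) {d : ℕ}
    (v : PiLp (ENNReal.ofReal p) (fun _ : Fin d => ℝ)) :
    ‖v‖ ^ p = ∑ k, |v.ofLp k| ^ p := by
  have hp0 : 0 < p := by linarith
  have htr : (ENNReal.ofReal p).toReal = p := ENNReal.toReal_ofReal hp0.le
  have h := PiLp.norm_eq_sum (p := ENNReal.ofReal p) (β := fun _ : Fin d => ℝ)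
    (by rw [htr]; exact hp0) v
  rw [h, htr, one_div, Real.rpow_inv_rpow _ hp0.ne']
  · simp only [Real.norm_eq_abs]
  · exact Finset.sum_nonneg (fun k _ => Real.rpow_nonneg (norm_nonneg _) _)

theorem norm_nonneg' (p : ℝ) (hp : 1 ≤ p) {d : ℕ}
    (v : PiLp (ENNReal.ofReal p) (fun _ : Fin d => ℝ)) : 0 ≤ ‖v‖ := by
  have hp0 : 0 < p := by linarith
  have htr : (ENNReal.ofReal p).toReal = p := ENNReal.toReal_ofReal hp0.le
  have h := PiLp.norm_eq_sum (p := ENNReal.ofReal p) (β := fun _ : Fin d => ℝ)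
    (by rw [htr]; exact hp0) v
  rw [h]
  exact Real.rpow_nonneg (Finset.sum_nonneg (fun k _ => Real.rpow_nonneg (norm_nonneg _) _)) _

theorem wrap (p : ℝ) (hp : 1 ≤ p) (D : ℝ) (hD : 1 < D) (n : ℕ) (hn : 2 ≤ n) :
    ∃ d : ℕ, (d : ℝ) ≤ (108 * 2 ^ (p - 1) * 6 ^ p / ((D - 1) / (D + 1)) ^ 2 + 2 ^ (p + 2)) * n
        * (Real.log n) ^ (p + 2) ∧
      ∀ (m : ℕ) (X : Finset (PiLp (ENNReal.ofReal p) (fun _ : Fin m => ℝ))), X.card = n →
        ∃ (f : PiLp (ENNReal.ofReal p) (fun _ : Fin m => ℝ) →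
            PiLp (ENNReal.ofReal p) (fun _ : Fin d => ℝ)) (s : ℝ), 0 < s ∧
          ∀ x ∈ X, ∀ x' ∈ X, s * ‖x - x'‖ ≤ ‖f x - f x'‖ ∧ ‖f x - f x'‖ ≤ D * s * ‖x - x'‖ := by
  classical
  have hp0 : 0 < p := by linarith
  set ε : ℝ := (D - 1) / (D + 1) with hε
  have hD1 : 0 < D + 1 := by linarith
  have hε0 : 0 < ε := div_pos (by linarith) hD1
  have hε1 : ε < 1 := by
    rw [hε, div_lt_one hD1]; linarith
  obtain ⟨L, T, hL1, hL, hT, hTle⟩ := choose_params p hp ε hε0 n hn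
  refine ⟨T, hTle, ?_⟩
  intro m X hX
  have hcard : Fintype.card X = n := by rw [Fintype.card_coe, hX]
  obtain ⟨y, hy⟩ := core (ι := X) (κ := Fin m) p hp (fun i k => (i : PiLp (ENNReal.ofReal p) (fun _ : Fin m => ℝ)).ofLp k) ε hε0 hε1.le
    L hL1 (by rw [hcard]; exact hL) T (by rw [hcard]; exact hT)
  refine ⟨fun v => if h : v ∈ X then WithLp.toLp _ (y ⟨v, h⟩) else 0, (1 - ε) ^ (1 / p), ?_, ?_⟩
  · exact Real.rpow_pos_of_pos (by linarith) _
  intro x hx x' hx'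
  simp only [hx, hx', dif_pos]
  have h := hy ⟨x, hx⟩ ⟨x', hx'⟩
  have e1 : ‖x - x'‖ ^ p = ∑ k, |x.ofLp k - x'.ofLp k| ^ p := by
    rw [norm_rpow_eq p hp]
    rfl
  have e2 : ‖(WithLp.toLp (ENNReal.ofReal p) (y ⟨x, hx⟩) : PiLp (ENNReal.ofReal p) (fun _ : Fin T => ℝ))
      - WithLp.toLp (ENNReal.ofReal p) (y ⟨x', hx'⟩)‖ ^ p
      = ∑ t, |y ⟨x, hx⟩ t - y ⟨x', hx'⟩ t| ^ p := by
    rw [norm_rpow_eq p hp]
    rfl
  simp only [] at h
  rw [← e1, ← e2] at h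
  set a := ‖x - x'‖ with ha
  set b := ‖(WithLp.toLp (ENNReal.ofReal p) (y ⟨x, hx⟩) : PiLp (ENNReal.ofReal p) (fun _ : Fin T => ℝ))
      - WithLp.toLp (ENNReal.ofReal p) (y ⟨x', hx'⟩)‖ with hb
  have ha0 : 0 ≤ a := norm_nonneg' p hp _
  have hb0 : 0 ≤ b := norm_nonneg' p hp _
  have h1ε : 0 < 1 - ε := by linarith
  have hroot : ∀ z : ℝ, 0 ≤ z → (z ^ p) ^ (1 / p) = z := by
    intro z hz
    rw [one_div, Real.rpow_rpow_inv hz hp0.ne']
  constructor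
  · have h1 : ((1 - ε) * a ^ p) ^ (1 / p) ≤ (b ^ p) ^ (1 / p) :=
      Real.rpow_le_rpow (by positivity) h.1 (by positivity)
    rw [Real.mul_rpow h1ε.le (by positivity), hroot a ha0, hroot b hb0] at h1
    exact h1
  · have h1 : (b ^ p) ^ (1 / p) ≤ ((1 + ε) * a ^ p) ^ (1 / p) :=
      Real.rpow_le_rpow (by positivity) h.2 (by positivity)
    rw [Real.mul_rpow (by linarith) (by positivity), hroot a ha0, hroot b hb0] at h1
    refine le_trans h1 ?_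
    apply mul_le_mul_of_nonneg_right _ ha0
    have h2 : 1 + ε = D * (1 - ε) := by
      rw [hε]; field_simp; ring
    rw [h2, Real.mul_rpow (by linarith) h1ε.le]
    apply mul_le_mul_of_nonneg_right _ (by positivity)
    have h3 : D ^ (1 / p) ≤ D ^ (1 : ℝ) := by
      apply Real.rpow_le_rpow_of_exponent_le hD.le
      rw [div_le_one hp0]; exact hp
    rwa [Real.rpow_one] at h3

end Vale.Agent.Lib.P249
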