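import Mathlib
import Vale.Agent.Lib.P249.LowerCore
import Vale.Agent.Lib.P249.Wrap

/-!
# The lower bound for dimension reduction in `ℓ_p`, `p ≥ 2`, in terms of `PiLp` norms
-/

namespace Vale.Agent.Lib.P249

open Finset

/-- Number of `true` bits in each row. -/
def cnt {k : ℕ} (ε : Cube (k * k)) (i : Fin k) : Fin (k + 1) :=
  ⟨(Finset.univ.filter (fun l : Fin k => ε (finProdFinEquiv (i, l)) = true)).card,
    Nat.lt_succ_of_le ((Finset.card_filter_le _ _).trans (by simp))⟩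

theorem Srow_eq_cnt {k : ℕ} (ε : Cube (k * k)) (i : Fin k) :
    Srow ε i = 2 * ((cnt ε i : ℕ) : ℝ) - k := by
  unfold Srow cnt
  have h1 : ∀ b : Bool, sg b = 2 * (if b = true then (1 : ℝ) else 0) - 1 := by
    intro b
    cases b <;> simp [sg] <;> norm_num
  simp only [h1]
  rw [Finset.sum_sub_distrib, ← Finset.mul_sum, Finset.sum_boole]
  simp

/-- Indexing of the coordinates of the source space by sign vectors. -/
noncomputable def idx (k : ℕ) : Cube k ≃ Fin (2 ^ k) :=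
  Fintype.equivFinOfCardEq (by simp [Fintype.card_bool])

/-- The source points: a grid in Euclidean space, realised in `ℓ_p` by Rademacher sums. -/
noncomputable def Psi (p : ℝ) (k : ℕ) (c : Fin k → Fin (k + 1)) :
    PiLp (ENNReal.ofReal p) (fun _ : Fin (2 ^ k) => ℝ) :=
  WithLp.toLp _ (fun t => lin (fun i => 2 * ((c i : ℕ) : ℝ) - k) ((idx k).symm t))

theorem lin_sub {N : ℕ} (z z' : Fin N → ℝ) (τ : Cube N) :
    lin z τ - lin z' τ = lin (fun i => z i - z' i) τ := by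
  unfold lin
  rw [← Finset.sum_sub_distrib]
  apply Finset.sum_congr rfl
  intro i _
  ring

theorem norm_Psi (p : ℝ) (hp : 1 ≤ p) {k : ℕ} (ε η : Cube (k * k)) :
    ‖Psi p k (cnt ε) - Psi p k (cnt η)‖ ^ p
      = 2 ^ k * EE (fun τ : Cube k => |lin (fun i => Srow ε i - Srow η i) τ| ^ p) := by
  rw [norm_rpow_eq p hp]
  have e1 : ∀ t, (Psi p k (cnt ε) - Psi p k (cnt η)).ofLp t
      = lin (fun i => Srow ε i - Srow η i) ((idx k).symm t) := by
    intro t
    have : (Psi p k (cnt ε) - Psi p k (cnt η)).ofLp t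
        = lin (fun i => 2 * ((cnt ε i : ℕ) : ℝ) - k) ((idx k).symm t)
          - lin (fun i => 2 * ((cnt η i : ℕ) : ℝ) - k) ((idx k).symm t) := rfl
    rw [this, lin_sub]
    simp only [Srow_eq_cnt]
  simp only [e1]
  unfold EE
  rw [mul_div_cancel₀ _ (by positivity)]
  exact Fintype.sum_equiv (idx k).symm _ _ (fun _ => rfl)

theorem abs_coord_le (p : ℝ) (hp : 1 ≤ p) {d : ℕ}
    (v : PiLp (ENNReal.ofReal p) (fun _ : Fin d => ℝ)) (j : Fin d) : |v.ofLp j| ≤ ‖v‖ := by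
  have hp0 : 0 < p := by linarith
  have h1 : |v.ofLp j| ^ p ≤ ‖v‖ ^ p := by
    rw [norm_rpow_eq p hp]
    exact Finset.single_le_sum (f := fun k => |v.ofLp k| ^ p)
      (fun k _ => Real.rpow_nonneg (abs_nonneg _) p) (Finset.mem_univ j)
  exact (Real.rpow_le_rpow_iff (abs_nonneg _) (norm_nonneg' p hp v) hp0).mp h1

instance infinite_ellp (p : ℝ) (k : ℕ) :
    Infinite (PiLp (ENNReal.ofReal p) (fun _ : Fin (2 ^ k) => ℝ)) := by
  apply Infinite.of_injective
    (fun r : ℝ => (WithLp.toLp _ (fun _ => r) : PiLp (ENNReal.ofReal p) (fun _ : Fin (2 ^ k) => ℝ)))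
  intro r r' h
  have h2 := congrArg (fun v : PiLp (ENNReal.ofReal p) (fun _ : Fin (2 ^ k) => ℝ) =>
    v.ofLp ⟨0, by positivity⟩) h
  exact h2

theorem lower_wrap (p : ℝ) (hp : 2 ≤ p) : ∃ c : ℝ, 0 < c ∧
    ∀ (D : ℝ), 0 < D → ∀ (k : ℕ), 1 ≤ k → ∀ (n : ℕ), (k + 1) ^ k ≤ n → ∀ (d : ℕ),
      (∀ (m : ℕ) (X : Finset (PiLp (ENNReal.ofReal p) (fun _ : Fin m => ℝ))), X.card = n →
        ∃ (f : PiLp (ENNReal.ofReal p) (fun _ : Fin m => ℝ) →
            PiLp (ENNReal.ofReal p) (fun _ : Fin d => ℝ)) (s : ℝ), 0 < s ∧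
          ∀ x ∈ X, ∀ x' ∈ X, s * ‖x - x'‖ ≤ ‖f x - f x'‖ ∧ ‖f x - f x'‖ ≤ D * s * ‖x - x'‖) →
      c / D ^ p * (k : ℝ) ^ (p / 2) ≤ d := by
  classical
  have hp0 : 0 < p := by linarith
  have hp1 : 1 ≤ p := by linarith
  obtain ⟨c, hc0, hc⟩ := lower_core p hp
  obtain ⟨B, hB0, hB⟩ := khintchine_upper p hp0
  refine ⟨c / B, by positivity, ?_⟩
  intro D hD k hk n hn d hred
  -- the point set
  set X0 : Finset (PiLp (ENNReal.ofReal p) (fun _ : Fin (2 ^ k) => ℝ)) :=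
    Finset.univ.image (Psi p k) with hX0
  have hcard0 : X0.card ≤ n := by
    refine (Finset.card_image_le).trans ?_
    simpa using hn
  obtain ⟨X, hsub, hXcard⟩ := Infinite.exists_superset_card_eq X0 n hcard0
  obtain ⟨f, s, hs, hf⟩ := hred (2 ^ k) X hXcard
  have hmem : ∀ ε : Cube (k * k), Psi p k (cnt ε) ∈ X := fun ε =>
    hsub (Finset.mem_image_of_mem _ (Finset.mem_univ _))
  set G : Fin d → Cube (k * k) → ℝ := fun j ε => (f (Psi p k (cnt ε))).ofLp j with hG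
  set L : ℝ := D * s * (2 ^ k * B) ^ (1 / p) with hL
  set a : ℝ := s * (2 ^ k) ^ (1 / p) with ha
  have hLpos : 0 < L := by positivity
  have hapos : 0 < a := by positivity
  have hroot : ∀ z : ℝ, 0 ≤ z → (z ^ p) ^ (1 / p) = z := by
    intro z hz
    rw [one_div, Real.rpow_rpow_inv hz hp0.ne']
  have hroot' : ∀ z : ℝ, 0 ≤ z → (z ^ (1 / p)) ^ p = z := by
    intro z hz
    rw [one_div, Real.rpow_inv_rpow hz hp0.ne']
  have hsq : ∀ ε η : Cube (k * k), ∑ i, (Srow ε i - Srow η i) ^ 2 = sqd ε η := fun _ _ => rfl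
  have h1 : ∀ j ε η, |G j ε - G j η| ≤ L * Real.sqrt (sqd ε η) := by
    intro j ε η
    have h2 : |G j ε - G j η| ≤ ‖f (Psi p k (cnt ε)) - f (Psi p k (cnt η))‖ :=
      abs_coord_le p hp1 (f (Psi p k (cnt ε)) - f (Psi p k (cnt η))) j
    have h3 := (hf _ (hmem ε) _ (hmem η)).2
    have h4 : ‖Psi p k (cnt ε) - Psi p k (cnt η)‖ ≤ (2 ^ k * B) ^ (1 / p) * Real.sqrt (sqd ε η) := by
      have h5 : ‖Psi p k (cnt ε) - Psi p k (cnt η)‖ ^ p ≤ 2 ^ k * (B * (sqd ε η) ^ (p / 2)) := by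
        rw [norm_Psi p hp1]
        apply mul_le_mul_of_nonneg_left _ (by positivity)
        have := hB k (fun i => Srow ε i - Srow η i)
        rwa [hsq] at this
      have h6 : (‖Psi p k (cnt ε) - Psi p k (cnt η)‖ ^ p) ^ (1 / p)
          ≤ (2 ^ k * (B * (sqd ε η) ^ (p / 2))) ^ (1 / p) :=
        Real.rpow_le_rpow (Real.rpow_nonneg (norm_nonneg' p hp1 _) _) h5 (by positivity)
      rw [hroot _ (norm_nonneg' p hp1 _)] at h6
      refine h6.trans (le_of_eq ?_)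
      rw [← mul_assoc, Real.mul_rpow (by positivity) (Real.rpow_nonneg (sqd_nonneg _ _) _)]
      congr 1
      rw [← Real.rpow_mul (sqd_nonneg _ _), Real.sqrt_eq_rpow]
      congr 1
      field_simp
    calc |G j ε - G j η| ≤ D * s * ‖Psi p k (cnt ε) - Psi p k (cnt η)‖ := h2.trans h3
      _ ≤ D * s * ((2 ^ k * B) ^ (1 / p) * Real.sqrt (sqd ε η)) :=
          mul_le_mul_of_nonneg_left h4 (by positivity)
      _ = L * Real.sqrt (sqd ε η) := by rw [hL]; ring
  have h7 : ∀ ε, a ^ p * (sqd ε (neg ε)) ^ (p / 2) ≤ ∑ j, |G j ε - G j (neg ε)| ^ p := by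
    intro ε
    have h8 := (hf _ (hmem ε) _ (hmem (neg ε))).1
    have h9 : (s * ‖Psi p k (cnt ε) - Psi p k (cnt (neg ε))‖) ^ p
        ≤ ‖f (Psi p k (cnt ε)) - f (Psi p k (cnt (neg ε)))‖ ^ p :=
      Real.rpow_le_rpow (mul_nonneg hs.le (norm_nonneg' p hp1 _)) h8 hp0.le
    rw [Real.mul_rpow hs.le (norm_nonneg' p hp1 _), norm_Psi p hp1, norm_rpow_eq p hp1] at h9
    have h10 := khintchine_lower p hp (fun i => Srow ε i - Srow (neg ε) i)
    rw [hsq] at h10
    have e1 : a ^ p = s ^ p * 2 ^ k := by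
      rw [ha, Real.mul_rpow hs.le (by positivity), hroot' _ (by positivity)]
    rw [e1]
    calc s ^ p * 2 ^ k * (sqd ε (neg ε)) ^ (p / 2)
        ≤ s ^ p * (2 ^ k * EE (fun τ : Cube k => |lin (fun i => Srow ε i - Srow (neg ε) i) τ| ^ p)) := by
          rw [mul_assoc]
          apply mul_le_mul_of_nonneg_left _ (by positivity)
          exact mul_le_mul_of_nonneg_left h10 (by positivity)
      _ ≤ _ := h9
      _ = ∑ j, |G j ε - G j (neg ε)| ^ p := rfl
  have h11 := hc k hk d G L a hLpos hapos.le h1 h7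
  have e2 : (a / L) ^ p = 1 / (D ^ p * B) := by
    rw [Real.div_rpow hapos.le hLpos.le, ha, hL, Real.mul_rpow hs.le (by positivity),
      Real.mul_rpow (by positivity) (by positivity), Real.mul_rpow hD.le hs.le,
      hroot' _ (by positivity), hroot' _ (by positivity)]
    have : 0 < s ^ p := Real.rpow_pos_of_pos hs p
    have : 0 < D ^ p := Real.rpow_pos_of_pos hD p
    field_simp
  rw [e2] at h11
  have hDp : 0 < D ^ p := Real.rpow_pos_of_pos hD p
  have e3 : c / B / D ^ p = c * (1 / (D ^ p * B)) := by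
    field_simp
  rw [e3]
  exact h11

end Vale.Agent.Lib.P249
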