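import Mathlib
import Vale.Agent.Lib.P249.Chernoff

/-! Importance sampling of coordinates from given sensitivity upper bounds `Q`. -/

namespace Vale.Agent.Lib.P249

open Finset

theorem sampling_gen {ι κ : Type*} [Fintype ι] [Fintype κ] (p : ℝ) (hp : 1 ≤ p) (x : ι → κ → ℝ)
    (Q : κ → ℝ) (hQ0 : ∀ k, 0 ≤ Q k)
    (hQ : ∀ k i j, |x i k - x j k| ^ p ≤ Q k * ∑ l, |x i l - x j l| ^ p)
    (S : ℝ) (hS : ∑ k, Q k ≤ S)
    (ε : ℝ) (hε0 : 0 < ε) (hε1 : ε ≤ 1) (T : ℕ)
    (hT : 2 * ((Fintype.card ι : ℝ) ^ 2) * Real.exp (-(ε ^ 2 * T / (4 * S))) < 1) :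
    ∃ y : ι → Fin T → ℝ, ∀ i j,
      (1 - ε) * ∑ k, |x i k - x j k| ^ p ≤ ∑ t, |y i t - y j t| ^ p ∧
      ∑ t, |y i t - y j t| ^ p ≤ (1 + ε) * ∑ k, |x i k - x j k| ^ p := by
  classical
  have hp0 : 0 < p := by linarith
  set n : ℝ := (Fintype.card ι : ℝ) with hn
  set Dd : ι → ι → ℝ := fun i j => ∑ k, |x i k - x j k| ^ p with hDd
  have hg0 : ∀ i j k, 0 ≤ |x i k - x j k| ^ p := fun i j k => Real.rpow_nonneg (abs_nonneg _) _
  have hDd0 : ∀ i j, 0 ≤ Dd i j := fun i j => Finset.sum_nonneg (fun k _ => hg0 i j k)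
  have hzero : ∀ i j, Dd i j = 0 → ∀ k, x i k = x j k := by
    intro i j h k
    have h1 := (Finset.sum_eq_zero_iff_of_nonneg (fun k _ => hg0 i j k)).mp h k (Finset.mem_univ k)
    have h2 : |x i k - x j k| = 0 := by
      by_contra hne
      have : 0 < |x i k - x j k| := lt_of_le_of_ne (abs_nonneg _) (Ne.symm hne)
      have := Real.rpow_pos_of_pos this p
      linarith
    have h3 := abs_eq_zero.mp h2
    linarith
  have hsens : ∀ a b k, |x a k - x b k| ^ p / Dd a b ≤ Q k := by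
    intro a b k
    by_cases h : Dd a b = 0
    · rw [h, div_zero]; exact hQ0 k
    · have hpos : 0 < Dd a b := lt_of_le_of_ne (hDd0 a b) (Ne.symm h)
      rw [div_le_iff₀ hpos]
      exact hQ k a b
  set W : ℝ := ∑ k, Q k with hW
  have hW0 : 0 ≤ W := Finset.sum_nonneg (fun k _ => hQ0 k)
  have hsum1 : ∀ i j, Dd i j ≠ 0 → ∑ k, |x i k - x j k| ^ p / Dd i j = 1 := by
    intro i j h
    rw [← Finset.sum_div]
    exact div_self h
  by_cases hWz : W = 0
  · have hσz : ∀ k, Q k = 0 := by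
      intro k
      exact (Finset.sum_eq_zero_iff_of_nonneg (fun k _ => hQ0 k)).mp hWz k (Finset.mem_univ k)
    have hall : ∀ i j, Dd i j = 0 := by
      intro i j
      by_contra h
      have h1 := hsum1 i j h
      have h2 : ∑ k, |x i k - x j k| ^ p / Dd i j ≤ 0 := by
        apply Finset.sum_nonpos
        intro k _
        have := hsens i j k
        rw [hσz k] at this
        exact this
      linarith
    refine ⟨fun _ _ => 0, ?_⟩
    intro i j
    have : ∑ k, |x i k - x j k| ^ p = 0 := hall i j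
    rw [this]
    simp [Real.zero_rpow hp0.ne']
  have hWpos : 0 < W := lt_of_le_of_ne hW0 (Ne.symm hWz)
  have hSpos : 0 < S := lt_of_lt_of_le hWpos hS
  set π : κ → ℝ := fun k => Q k / W with hπ
  have hπ0 : ∀ k, 0 ≤ π k := fun k => div_nonneg (hQ0 k) hW0
  have hπ1 : ∑ k, π k = 1 := by
    simp only [hπ]
    rw [← Finset.sum_div]
    exact div_self hWz
  let P := {q : ι × ι // Dd q.1 q.2 ≠ 0}
  set Z : P → κ → ℝ := fun q k => (|x q.1.1 k - x q.1.2 k| ^ p / Dd q.1.1 q.1.2) / π k with hZ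
  have ht0 : ∀ (q : P) k, 0 ≤ |x q.1.1 k - x q.1.2 k| ^ p / Dd q.1.1 q.1.2 :=
    fun q k => div_nonneg (hg0 _ _ _) (hDd0 _ _)
  have hZ0 : ∀ q k, 0 ≤ Z q k := fun q k => div_nonneg (ht0 q k) (hπ0 k)
  have hZB : ∀ q k, Z q k ≤ S := by
    intro q k
    simp only [hZ]
    by_cases hz : π k = 0
    · rw [hz, div_zero]; exact hSpos.le
    · have hpos : 0 < π k := lt_of_le_of_ne (hπ0 k) (Ne.symm hz)
      rw [div_le_iff₀ hpos]
      have h1 := hsens q.1.1 q.1.2 k
      have h2 : Q k = W * π k := by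
        simp only [hπ]; field_simp
      rw [h2] at h1
      calc _ ≤ W * π k := h1
        _ ≤ S * π k := mul_le_mul_of_nonneg_right hS hpos.le
  have hZ1 : ∀ q, ∑ k, π k * Z q k = 1 := by
    intro q
    rw [← hsum1 q.1.1 q.1.2 q.2]
    apply Finset.sum_congr rfl
    intro k _
    simp only [hZ]
    by_cases hz : π k = 0
    · rw [hz, div_zero, mul_zero]
      have h1 := hsens q.1.1 q.1.2 k
      have h2 : Q k = 0 := by
        have : Q k / W = 0 := hz
        rcases div_eq_zero_iff.mp this with h | h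
        · exact h
        · exact absurd h hWz
      rw [h2] at h1
      exact le_antisymm (ht0 q k) h1
    · field_simp
  have hcardP : (Fintype.card P : ℝ) ≤ n ^ 2 := by
    have h1 : Fintype.card P ≤ Fintype.card (ι × ι) := Fintype.card_subtype_le _
    rw [Fintype.card_prod] at h1
    have : (Fintype.card P : ℝ) ≤ ((Fintype.card ι * Fintype.card ι : ℕ) : ℝ) := by exact_mod_cast h1
    rw [hn, sq]
    push_cast at this
    exact this
  have hT' : 2 * (Fintype.card P : ℝ) * Real.exp (-(ε ^ 2 * T / (4 * S))) < 1 := by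
    refine lt_of_le_of_lt ?_ hT
    apply mul_le_mul_of_nonneg_right _ (Real.exp_pos _).le
    linarith
  obtain ⟨s, hspos, hs⟩ := exists_good_sample π hπ0 hπ1 Z S hSpos hZ0 hZB hZ1 ε hε0 hε1 T hT'
  refine ⟨fun i t => x i (s t) / ((T : ℝ) * π (s t)) ^ (1 / p), ?_⟩
  intro i j
  by_cases hD : Dd i j = 0
  · have h1 : ∑ k, |x i k - x j k| ^ p = 0 := hD
    rw [h1]
    have h2 : ∀ t, x i (s t) = x j (s t) := fun t => hzero i j hD (s t)
    simp [h2, Real.zero_rpow hp0.ne']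
  · have hTpos : 0 < (T : ℝ) := by
      by_contra hcon
      have hT00 : (T : ℝ) = 0 := le_antisymm (not_lt.mp hcon) (Nat.cast_nonneg T)
      rw [hT00] at hT'
      simp only [mul_zero, zero_div, neg_zero, Real.exp_zero, mul_one] at hT'
      have : 1 ≤ Fintype.card P := Fintype.card_pos_iff.mpr ⟨⟨(i, j), hD⟩⟩
      have : (1 : ℝ) ≤ (Fintype.card P : ℝ) := by exact_mod_cast this
      linarith
    have hkey : ∑ t, |x i (s t) / ((T : ℝ) * π (s t)) ^ (1 / p)
        - x j (s t) / ((T : ℝ) * π (s t)) ^ (1 / p)| ^ p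
        = Dd i j / T * ∑ t, Z ⟨(i, j), hD⟩ (s t) := by
      rw [Finset.mul_sum]
      apply Finset.sum_congr rfl
      intro t _
      have hc : 0 < (T : ℝ) * π (s t) := mul_pos hTpos (hspos t)
      have hc' : 0 < ((T : ℝ) * π (s t)) ^ (1 / p) := Real.rpow_pos_of_pos hc _
      rw [← sub_div, abs_div, abs_of_pos hc', Real.div_rpow (abs_nonneg _) hc'.le,
        one_div, Real.rpow_inv_rpow hc.le hp0.ne']
      simp only [hZ]
      have := (hspos t).ne'
      field_simp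
    have h1 := hs ⟨(i, j), hD⟩
    have hDpos : 0 < Dd i j := lt_of_le_of_ne (hDd0 i j) (Ne.symm hD)
    have hDT : 0 < Dd i j / T := div_pos hDpos hTpos
    change (1 - ε) * Dd i j ≤ _ ∧ _ ≤ (1 + ε) * Dd i j
    rw [hkey]
    constructor
    · calc (1 - ε) * Dd i j = Dd i j / T * ((1 - ε) * T) := by field_simp
        _ ≤ _ := mul_le_mul_of_nonneg_left h1.1 hDT.le
    · calc _ ≤ Dd i j / T * ((1 + ε) * T) := mul_le_mul_of_nonneg_left h1.2 hDT.le
        _ = (1 + ε) * Dd i j := by field_simp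

/-- numerical condition: `T > 12 S log n / ε^2` suffices. -/
theorem tail_cond (n : ℕ) (hn : 2 ≤ n) (S : ℝ) (ε : ℝ) (hε0 : 0 < ε) (T : ℕ)
    (hM : 12 * S * Real.log n / ε ^ 2 < T) (hS : 0 < S) :
    2 * ((n : ℝ) ^ 2) * Real.exp (-(ε ^ 2 * T / (4 * S))) < 1 := by
  have hnR : (2 : ℝ) ≤ (n : ℝ) := by exact_mod_cast hn
  have hnpos : (0 : ℝ) < (n : ℝ) := by linarith
  set l : ℝ := Real.log n with hl
  have h1 : 3 * l < ε ^ 2 * T / (4 * S) := by
    rw [lt_div_iff₀ (by positivity)]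
    have h2 : 12 * S * l < T * ε ^ 2 := by
      rwa [div_lt_iff₀ (by positivity)] at hM
    nlinarith
  have h2 : Real.exp (-(ε ^ 2 * T / (4 * S))) < Real.exp (-(3 * l)) := by
    apply Real.exp_lt_exp.mpr
    linarith
  have h3 : Real.exp (3 * l) = (n : ℝ) ^ 3 := by
    have : 3 * l = l + l + l := by ring
    rw [this, Real.exp_add, Real.exp_add, hl, Real.exp_log hnpos]
    ring
  have h4 : Real.exp (-(3 * l)) = 1 / (n : ℝ) ^ 3 := by
    rw [Real.exp_neg, h3, one_div]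
  rw [h4] at h2
  have h5 : 2 * ((n : ℝ) ^ 2) * (1 / (n : ℝ) ^ 3) ≤ 1 := by
    have : 2 * ((n : ℝ) ^ 2) * (1 / (n : ℝ) ^ 3) = 2 / n := by
      field_simp
    rw [this, div_le_one hnpos]
    exact hnR
  have h6 : 0 < 2 * ((n : ℝ) ^ 2) := by positivity
  calc _ < 2 * ((n : ℝ) ^ 2) * (1 / (n : ℝ) ^ 3) := mul_lt_mul_of_pos_left h2 h6
    _ ≤ 1 := h5

theorem exists_sample {n m : ℕ} (p : ℝ) (hp : 1 ≤ p) (x : Fin n → Fin m → ℝ) (Q : Fin m → ℝ)
    (hQ0 : ∀ k, 0 ≤ Q k)
    (hQ : ∀ k i j, |x i k - x j k| ^ p ≤ Q k * Finset.sum Finset.univ (fun l => |x i l - x j l| ^ p))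
    (S : ℝ) (hS : Finset.sum Finset.univ Q ≤ S) (eps : ℝ) (h0 : 0 < eps) (h1 : eps < 1)
    (hn : 2 ≤ n) (M : ℕ) (hM : 12 * S * Real.log n / eps ^ 2 < M) :
    ∃ f : Fin n → Fin M → ℝ, ∀ i j,
      (1 - eps) * Finset.sum Finset.univ (fun l => |x i l - x j l| ^ p)
        ≤ Finset.sum Finset.univ (fun s => |f i s - f j s| ^ p) ∧
      Finset.sum Finset.univ (fun s => |f i s - f j s| ^ p)
        ≤ (1 + eps) * Finset.sum Finset.univ (fun l => |x i l - x j l| ^ p) := by
  have hS0 : 0 ≤ S := le_trans (Finset.sum_nonneg (fun k _ => hQ0 k)) hS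
  rcases hS0.lt_or_eq with hSpos | hSz
  · apply sampling_gen p hp x Q hQ0 hQ S hS eps h0 h1.le M
    rw [Fintype.card_fin]
    exact tail_cond n hn S eps h0 M hM hSpos
  · -- S = 0: use S' = 1 with the same Q (sum Q = 0 ≤ 1); need a separate argument
    have hQz : ∀ k, Q k = 0 := by
      intro k
      have hsum : Finset.sum Finset.univ Q = 0 :=
        le_antisymm (by rw [hSz]; exact hS) (Finset.sum_nonneg (fun k _ => hQ0 k))
      exact (Finset.sum_eq_zero_iff_of_nonneg (fun k _ => hQ0 k)).mp hsum k (Finset.mem_univ k)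
    have hp0 : 0 < p := by linarith
    refine ⟨fun _ _ => 0, ?_⟩
    intro i j
    have : Finset.sum Finset.univ (fun l => |x i l - x j l| ^ p) = 0 := by
      apply Finset.sum_eq_zero
      intro k _
      have h := hQ k i j
      rw [hQz k, zero_mul] at h
      exact le_antisymm h (Real.rpow_nonneg (abs_nonneg _) _)
    rw [this]
    simp [Real.zero_rpow hp0.ne']

end Vale.Agent.Lib.P249
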