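import Mathlib

namespace Vale.Agent.Lib.P249

open Finset

variable {ι κ : Type} [DecidableEq ι]

/-- Greedy (Vitali type) selection of centres: smallest radius first. -/
theorem exists_centres (B : ι → Finset ι) (ρ : ι → ℝ) (t : Finset ι)
    (hB : ∀ v ∈ t, (B v).Nonempty) :
    ∃ C ⊆ t, (∀ c ∈ C, ∀ c' ∈ C, c ≠ c' → Disjoint (B c) (B c')) ∧
      ∀ v ∈ t, ∃ c ∈ C, ¬ Disjoint (B v) (B c) ∧ ρ c ≤ ρ v := by
  induction t using Finset.strongInduction with
  | H t ih =>
    rcases t.eq_empty_or_nonempty with rfl | hne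
    · exact ⟨∅, Subset.refl _, by simp, by simp⟩
    · obtain ⟨c0, hc0, hmin⟩ := Finset.exists_min_image t ρ hne
      have hss : t.filter (fun v => Disjoint (B v) (B c0)) ⊂ t := by
        refine Finset.filter_ssubset.mpr ⟨c0, hc0, ?_⟩
        intro h
        rw [disjoint_self] at h
        exact (hB c0 hc0).ne_empty h
      obtain ⟨C', hC't', hdisj, hcov⟩ := ih _ hss (fun v hv => hB v (mem_of_mem_filter v hv))
      refine ⟨insert c0 C', ?_, ?_, ?_⟩
      · intro c hc
        rcases mem_insert.mp hc with rfl | hc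
        · exact hc0
        · exact mem_of_mem_filter c (hC't' hc)
      · intro c hc c' hc' hne'
        rcases mem_insert.mp hc with h1 | h1
        · rcases mem_insert.mp hc' with h2 | h2
          · exact absurd (h1.trans h2.symm) hne'
          · rw [h1]
            exact ((mem_filter.mp (hC't' h2)).2).symm
        · rcases mem_insert.mp hc' with h2 | h2
          · rw [h2]
            exact (mem_filter.mp (hC't' h1)).2
          · exact hdisj c h1 c' h2 hne'
      · intro v hv
        by_cases hd : Disjoint (B v) (B c0)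
        · obtain ⟨c, hc, h1, h2⟩ := hcov v (mem_filter.mpr ⟨hv, hd⟩)
          exact ⟨c, mem_insert_of_mem hc, h1, h2⟩
        · exact ⟨c0, mem_insert_self _ _, hd, hmin v hv⟩

omit [DecidableEq ι] in
/-- The radius of the smallest closed ball around `v` with at least `R` points of `Y`. -/
theorem exists_radius (d : ι → ι → ℝ) (Y : Finset ι) (R : ℕ) (hR : 1 ≤ R) (hY : R ≤ Y.card)
    (v : ι) :
    ∃ ρ : ℝ, R ≤ (Y.filter (fun u => d v u ≤ ρ)).card ∧
      (Y.filter (fun u => d v u < ρ)).card < R := by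
  have hYne : Y.Nonempty := by
    rw [← card_pos]; omega
  set T := Y.filter (fun u => R ≤ (Y.filter (fun u' => d v u' ≤ d v u)).card) with hT
  have hTne : T.Nonempty := by
    obtain ⟨u, hu, hmax⟩ := Finset.exists_max_image Y (d v) hYne
    refine ⟨u, mem_filter.mpr ⟨hu, ?_⟩⟩
    rw [filter_true_of_mem hmax]
    exact hY
  obtain ⟨u, hu, hmin⟩ := Finset.exists_min_image T (d v) hTne
  refine ⟨d v u, (mem_filter.mp hu).2, ?_⟩
  by_contra hcon
  rw [not_lt] at hcon
  have hOne : (Y.filter (fun u' => d v u' < d v u)).Nonempty := by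
    rw [← card_pos]; omega
  obtain ⟨w, hw, hmax⟩ := Finset.exists_max_image _ (d v) hOne
  have hwT : w ∈ T := by
    refine mem_filter.mpr ⟨mem_of_mem_filter w hw, hcon.trans ?_⟩
    apply card_le_card
    intro z hz
    exact mem_filter.mpr ⟨mem_of_mem_filter z hz, hmax z hz⟩
  have := hmin w hwT
  have h2 := (mem_filter.mp hw).2
  linarith

/-- Chain inequality. -/
theorem chain_bound {p : ℝ} (hp : 1 ≤ p) {T D a1 a2 a3 e0 e1 e2 e3 : ℝ} (hT : 0 ≤ T) (hD : 0 ≤ D)
    (ha1 : 0 ≤ a1) (ha2 : 0 ≤ a2) (ha3 : 0 ≤ a3) (he0 : 0 ≤ e0)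
    (he1 : 0 ≤ e1) (he2 : 0 ≤ e2) (he3 : 0 ≤ e3)
    (h1 : e1 ^ p ≤ T * a1 ^ p) (h2 : e2 ^ p ≤ T * a2 ^ p) (h3 : e3 ^ p ≤ T * a3 ^ p)
    (hsum : e0 ≤ e1 + e2 + e3) (hlen : a1 + a2 + a3 ≤ 9 * D) :
    e0 ^ p ≤ 9 ^ p * T * D ^ p := by
  have hp0 : 0 < p := by linarith
  have hroot : ∀ e a : ℝ, 0 ≤ e → 0 ≤ a → e ^ p ≤ T * a ^ p → e ≤ T ^ (1 / p) * a := by
    intro e a he ha h
    have : T * a ^ p = (T ^ (1 / p) * a) ^ p := by
      rw [Real.mul_rpow (Real.rpow_nonneg hT _) ha, ← Real.rpow_mul hT]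
      rw [one_div, inv_mul_cancel₀ hp0.ne', Real.rpow_one]
    rw [this] at h
    exact (Real.rpow_le_rpow_iff he (mul_nonneg (Real.rpow_nonneg hT _) ha) hp0).mp h
  have b1 := hroot e1 a1 he1 ha1 h1
  have b2 := hroot e2 a2 he2 ha2 h2
  have b3 := hroot e3 a3 he3 ha3 h3
  have hr : 0 ≤ T ^ (1 / p) := Real.rpow_nonneg hT _
  have hle : e0 ≤ T ^ (1 / p) * (9 * D) := by
    calc e0 ≤ e1 + e2 + e3 := hsum
      _ ≤ T ^ (1 / p) * (a1 + a2 + a3) := by nlinarith
      _ ≤ T ^ (1 / p) * (9 * D) := mul_le_mul_of_nonneg_left hlen hr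
  calc e0 ^ p ≤ (T ^ (1 / p) * (9 * D)) ^ p := Real.rpow_le_rpow he0 hle hp0.le
    _ = 9 ^ p * T * D ^ p := by
      rw [Real.mul_rpow hr (by positivity), Real.mul_rpow (by norm_num) hD, ← Real.rpow_mul hT,
        one_div, inv_mul_cancel₀ hp0.ne', Real.rpow_one]
      ring

/-- Abstract form of the bound on the total sensitivity of all pairs of points. -/
theorem sensitivity_aux [Fintype κ] {p : ℝ} (hp : 1 ≤ p) (d : ι → ι → ℝ) (δ : κ → ι → ι → ℝ)
    (hd0 : ∀ i j, 0 ≤ d i j) (hdsymm : ∀ i j, d i j = d j i)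
    (hdtri : ∀ i j l, d i l ≤ d i j + d j l)
    (hδ0 : ∀ k i j, 0 ≤ δ k i j) (hδsymm : ∀ k i j, δ k i j = δ k j i)
    (hδtri : ∀ k i j l, δ k i l ≤ δ k i j + δ k j l)
    (hsum : ∀ i j, ∑ k, δ k i j ^ p = d i j ^ p)
    (R : ℕ) (hR : 2 * (9 : ℝ) ^ p ≤ R) (N : ℕ) :
    ∀ Y : Finset ι, Y.card = N →
    ∃ Q : κ → ℝ, (∀ k, 0 ≤ Q k) ∧ (∀ k, ∀ i ∈ Y, ∀ j ∈ Y, δ k i j ^ p ≤ Q k * d i j ^ p) ∧
      ∑ k, Q k ≤ (2 * R + 2 * 9 ^ p) * Y.card := by
  have h9 : (1 : ℝ) ≤ 9 ^ p := Real.one_le_rpow (by norm_num) (by linarith)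
  have hR2 : 2 ≤ R := by
    have : (2 : ℝ) ≤ R := by linarith
    exact_mod_cast this
  have hdp0 : ∀ i j, 0 ≤ d i j ^ p := fun i j => Real.rpow_nonneg (hd0 i j) p
  have hδp0 : ∀ k i j, 0 ≤ δ k i j ^ p := fun k i j => Real.rpow_nonneg (hδ0 k i j) p
  -- normalised shares
  set A : κ → ι → ι → ℝ := fun k i j => δ k i j ^ p / d i j ^ p with hA
  have hA0 : ∀ k i j, 0 ≤ A k i j := fun k i j => div_nonneg (hδp0 k i j) (hdp0 i j)
  have hAeq : ∀ k i j, δ k i j ^ p = A k i j * d i j ^ p := by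
    intro k i j
    by_cases h : d i j ^ p = 0
    · have h1 := hsum i j
      rw [h] at h1
      have h2 := (Finset.sum_eq_zero_iff_of_nonneg (fun k _ => hδp0 k i j)).mp h1 k (mem_univ k)
      rw [h2, h, mul_zero]
    · rw [hA]
      simp only
      rw [div_mul_cancel₀ _ h]
  have hAsum : ∀ i j, ∑ k, A k i j ≤ 1 := by
    intro i j
    rw [hA]
    simp only
    rw [← Finset.sum_div, hsum]
    exact div_self_le_one _
  have hAsymm : ∀ k i j, A k i j = A k j i := by
    intro k i j
    rw [hA]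
    simp only
    rw [hδsymm k i j, hdsymm i j]
  induction N using Nat.strong_induction_on with
  | _ N ih =>
  intro Y hYN
  by_cases hsmall : Y.card ≤ R
  · -- few points: use all pairs
    refine ⟨fun k => ∑ i ∈ Y, ∑ j ∈ Y, A k i j, ?_, ?_, ?_⟩
    · intro k
      exact Finset.sum_nonneg (fun i _ => Finset.sum_nonneg (fun j _ => hA0 k i j))
    · intro k i hi j hj
      rw [hAeq k i j]
      apply mul_le_mul_of_nonneg_right _ (hdp0 i j)
      calc A k i j ≤ ∑ j' ∈ Y, A k i j' :=
            Finset.single_le_sum (f := fun j' => A k i j') (fun j' _ => hA0 k i j') hj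
        _ ≤ ∑ i' ∈ Y, ∑ j' ∈ Y, A k i' j' :=
            Finset.single_le_sum (f := fun i' => ∑ j' ∈ Y, A k i' j')
              (fun i' _ => Finset.sum_nonneg (fun j' _ => hA0 k i' j')) hi
    · rw [Finset.sum_comm]
      calc ∑ i ∈ Y, ∑ k, ∑ j ∈ Y, A k i j = ∑ i ∈ Y, ∑ j ∈ Y, ∑ k, A k i j := by
            apply Finset.sum_congr rfl
            intro i _
            rw [Finset.sum_comm]
        _ ≤ ∑ i ∈ Y, ∑ j ∈ Y, (1 : ℝ) :=
            Finset.sum_le_sum (fun i _ => Finset.sum_le_sum (fun j _ => hAsum i j))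
        _ = (Y.card : ℝ) * Y.card := by simp
        _ ≤ (R : ℝ) * Y.card := by
            apply mul_le_mul_of_nonneg_right _ (Nat.cast_nonneg _)
            exact_mod_cast hsmall
        _ ≤ (2 * R + 2 * 9 ^ p) * Y.card := by
            apply mul_le_mul_of_nonneg_right _ (Nat.cast_nonneg _)
            have : (0 : ℝ) ≤ R := Nat.cast_nonneg _
            linarith
  · -- many points
    rw [not_le] at hsmall
    choose ρ hρ1 hρ2 using exists_radius d Y R (by omega) hsmall.le
    set B : ι → Finset ι := fun v => Y.filter (fun u => d v u ≤ ρ v) with hB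
    have hBne : ∀ v ∈ Y, (B v).Nonempty := by
      intro v _
      rw [← card_pos]
      have : R ≤ (B v).card := hρ1 v
      omega
    obtain ⟨C, hCY, hCdisj, hCcov⟩ := exists_centres B ρ Y hBne
    have hcen : ∀ v, ∃ c, v ∈ Y → (c ∈ C ∧ d v c ≤ 2 * ρ v) := by
      intro v
      by_cases hv : v ∈ Y
      · obtain ⟨c, hc, hnd, hle⟩ := hCcov v hv
        refine ⟨c, fun _ => ⟨hc, ?_⟩⟩
        rw [Finset.not_disjoint_iff] at hnd
        obtain ⟨u, hu1, hu2⟩ := hnd
        have h1 := (mem_filter.mp hu1).2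
        have h2 := (mem_filter.mp hu2).2
        have h3 := hdtri v u c
        rw [hdsymm u c] at h3
        linarith
      · exact ⟨v, fun h => absurd h hv⟩
    choose cen hcen using hcen
    -- the centres are few
    have hCcard : C.card * R ≤ Y.card := by
      calc C.card * R = ∑ _c ∈ C, R := by simp
        _ ≤ ∑ c ∈ C, (B c).card := Finset.sum_le_sum (fun c _ => hρ1 c)
        _ = (C.biUnion B).card := (Finset.card_biUnion hCdisj).symm
        _ ≤ Y.card := by
            apply card_le_card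
            intro u hu
            obtain ⟨c, _, hc⟩ := mem_biUnion.mp hu
            exact mem_of_mem_filter u hc
    have hClt : C.card < N := by
      rw [← hYN]
      have hpos : 0 < Y.card := by omega
      nlinarith
    obtain ⟨QC, hQC0, hQC, hQCsum⟩ := ih C.card hClt C rfl
    set Qnear : κ → ℝ := fun k => ∑ v ∈ Y, ∑ w ∈ Y.filter (fun w => d v w < ρ v), A k v w
      with hQnear
    set Qcen : κ → ℝ := fun k => ∑ u ∈ Y, A k u (cen u) with hQcen
    have hQnear0 : ∀ k, 0 ≤ Qnear k := fun k =>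
      Finset.sum_nonneg (fun v _ => Finset.sum_nonneg (fun w _ => hA0 k v w))
    have hQcen0 : ∀ k, 0 ≤ Qcen k := fun k => Finset.sum_nonneg (fun u _ => hA0 k u (cen u))
    have hnear : ∀ k, ∀ v ∈ Y, ∀ w ∈ Y, d v w < ρ v → A k v w ≤ Qnear k := by
      intro k v hv w hw hlt
      calc A k v w ≤ ∑ w' ∈ Y.filter (fun w' => d v w' < ρ v), A k v w' :=
            Finset.single_le_sum (f := fun w' => A k v w') (fun w' _ => hA0 k v w')
              (mem_filter.mpr ⟨hw, hlt⟩)
        _ ≤ Qnear k :=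
            Finset.single_le_sum
              (f := fun v' => ∑ w' ∈ Y.filter (fun w' => d v' w' < ρ v'), A k v' w')
              (fun v' _ => Finset.sum_nonneg (fun w' _ => hA0 k v' w')) hv
    have hcenle : ∀ k, ∀ u ∈ Y, A k u (cen u) ≤ Qcen k := by
      intro k u hu
      exact Finset.single_le_sum (f := fun u' => A k u' (cen u')) (fun u' _ => hA0 k u' (cen u')) hu
    have h9pos : (0 : ℝ) < 9 ^ p := by linarith
    refine ⟨fun k => Qnear k + 9 ^ p * (Qcen k + QC k), ?_, ?_, ?_⟩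
    · intro k
      have := hQnear0 k
      have := hQcen0 k
      have := hQC0 k
      positivity
    · intro k i hi j hj
      have hT0 : 0 ≤ Qcen k + QC k := add_nonneg (hQcen0 k) (hQC0 k)
      have hextra : 0 ≤ 9 ^ p * (Qcen k + QC k) := mul_nonneg h9pos.le hT0
      by_cases h1 : d i j < ρ i
      · rw [hAeq k i j]
        apply mul_le_mul_of_nonneg_right _ (hdp0 i j)
        have := hnear k i hi j hj h1
        linarith
      by_cases h2 : d j i < ρ j
      · rw [hAeq k i j, hAsymm k i j]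
        apply mul_le_mul_of_nonneg_right _ (hdp0 i j)
        have := hnear k j hj i hi h2
        linarith
      rw [not_lt] at h1 h2
      rw [hdsymm j i] at h2
      obtain ⟨hci, hdi⟩ := hcen i hi
      obtain ⟨hcj, hdj⟩ := hcen j hj
      have key := chain_bound hp (T := Qcen k + QC k) (D := d i j)
        (a1 := d i (cen i)) (a2 := d (cen i) (cen j)) (a3 := d j (cen j))
        (e0 := δ k i j) (e1 := δ k i (cen i)) (e2 := δ k (cen i) (cen j)) (e3 := δ k j (cen j))
        hT0 (hd0 _ _) (hd0 _ _) (hd0 _ _) (hd0 _ _) (hδ0 _ _ _) (hδ0 _ _ _) (hδ0 _ _ _) (hδ0 _ _ _)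
        (by
          rw [hAeq k i (cen i)]
          apply mul_le_mul_of_nonneg_right _ (hdp0 _ _)
          have := hcenle k i hi
          have := hQC0 k
          linarith)
        (by
          refine (hQC k _ hci _ hcj).trans ?_
          apply mul_le_mul_of_nonneg_right _ (hdp0 _ _)
          have := hQcen0 k
          linarith)
        (by
          rw [hAeq k j (cen j)]
          apply mul_le_mul_of_nonneg_right _ (hdp0 _ _)
          have := hcenle k j hj
          have := hQC0 k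
          linarith)
        (by
          have t1 := hδtri k i (cen i) j
          have t2 := hδtri k (cen i) (cen j) j
          rw [hδsymm k (cen j) j] at t2
          linarith)
        (by
          have t1 := hdtri (cen i) i (cen j)
          have t2 := hdtri i j (cen j)
          rw [hdsymm (cen i) i] at t1
          linarith)
      refine key.trans ?_
      apply mul_le_mul_of_nonneg_right _ (hdp0 i j)
      have := hQnear0 k
      linarith
    · -- the sum
      have s1 : ∑ k, Qnear k ≤ (R : ℝ) * Y.card := by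
        rw [hQnear]
        simp only
        rw [Finset.sum_comm]
        calc ∑ v ∈ Y, ∑ k, ∑ w ∈ Y.filter (fun w => d v w < ρ v), A k v w
            = ∑ v ∈ Y, ∑ w ∈ Y.filter (fun w => d v w < ρ v), ∑ k, A k v w := by
              apply Finset.sum_congr rfl
              intro v _
              rw [Finset.sum_comm]
          _ ≤ ∑ v ∈ Y, ∑ w ∈ Y.filter (fun w => d v w < ρ v), (1 : ℝ) :=
              Finset.sum_le_sum (fun v _ => Finset.sum_le_sum (fun w _ => hAsum v w))
          _ = ∑ v ∈ Y, ((Y.filter (fun w => d v w < ρ v)).card : ℝ) := by simp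
          _ ≤ ∑ _v ∈ Y, (R : ℝ) := by
              apply Finset.sum_le_sum
              intro v _
              exact_mod_cast (hρ2 v).le
          _ = (R : ℝ) * Y.card := by simp [mul_comm]
      have s2 : ∑ k, Qcen k ≤ Y.card := by
        rw [hQcen]
        simp only
        rw [Finset.sum_comm]
        calc ∑ u ∈ Y, ∑ k, A k u (cen u) ≤ ∑ _u ∈ Y, (1 : ℝ) :=
              Finset.sum_le_sum (fun u _ => hAsum u (cen u))
          _ = Y.card := by simp
      have s3 : (C.card : ℝ) * R ≤ Y.card := by exact_mod_cast hCcard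
      rw [Finset.sum_add_distrib, ← Finset.mul_sum, Finset.sum_add_distrib]
      have hRpos : (0 : ℝ) < R := by linarith
      have hC0 : (0 : ℝ) ≤ C.card := Nat.cast_nonneg _
      have hY0 : (0 : ℝ) ≤ Y.card := Nat.cast_nonneg _
      -- 9^p * K * |C| ≤ K * |Y| / 2
      have s4 : (9 : ℝ) ^ p * ((2 * R + 2 * 9 ^ p) * C.card) ≤ (R + 9 ^ p) * Y.card := by
        have h5 : 2 * 9 ^ p * (C.card : ℝ) ≤ Y.card := by
          calc 2 * 9 ^ p * (C.card : ℝ) ≤ R * C.card := mul_le_mul_of_nonneg_right hR hC0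
            _ = C.card * R := mul_comm _ _
            _ ≤ Y.card := s3
        have h6 : 0 ≤ (R : ℝ) + 9 ^ p := by linarith
        calc (9 : ℝ) ^ p * ((2 * R + 2 * 9 ^ p) * C.card)
            = (R + 9 ^ p) * (2 * 9 ^ p * (C.card : ℝ)) := by ring
          _ ≤ (R + 9 ^ p) * Y.card := mul_le_mul_of_nonneg_left h5 h6
      have s5 : 9 ^ p * ∑ k, QC k ≤ 9 ^ p * ((2 * R + 2 * 9 ^ p) * C.card) :=
        mul_le_mul_of_nonneg_left hQCsum h9pos.le
      have s6 : 9 ^ p * ∑ k, Qcen k ≤ 9 ^ p * Y.card := mul_le_mul_of_nonneg_left s2 h9pos.le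
      nlinarith

/-- The total sensitivity of all pairs of `n` points of `ℓ_p^m` is at most `(6 * 9^p + 2) n`. -/
theorem exists_sensitivity [Fintype ι] [Fintype κ] (p : ℝ) (hp : 1 ≤ p) (x : ι → κ → ℝ) :
    ∃ Q : κ → ℝ, (∀ k, 0 ≤ Q k) ∧
      (∀ k i j, |x i k - x j k| ^ p ≤ Q k * ∑ l, |x i l - x j l| ^ p) ∧
      ∑ k, Q k ≤ (6 * 9 ^ p + 2) * Fintype.card ι := by
  have hp0 : 0 < p := by linarith
  have hS0 : ∀ i j, 0 ≤ ∑ l, |x i l - x j l| ^ p := fun i j =>
    Finset.sum_nonneg (fun l _ => Real.rpow_nonneg (abs_nonneg _) p)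
  have hdp : ∀ i j, ((∑ l, |x i l - x j l| ^ p) ^ (1 / p)) ^ p = ∑ l, |x i l - x j l| ^ p := by
    intro i j
    rw [← Real.rpow_mul (hS0 i j), one_div, inv_mul_cancel₀ hp0.ne', Real.rpow_one]
  have h9 : (0 : ℝ) < 9 ^ p := Real.rpow_pos_of_pos (by norm_num) p
  obtain ⟨Q, hQ0, hQ, hQsum⟩ := sensitivity_aux hp
    (fun i j => (∑ l, |x i l - x j l| ^ p) ^ (1 / p)) (fun k i j => |x i k - x j k|)
    (fun i j => Real.rpow_nonneg (hS0 i j) _)
    (fun i j => by
      congr 1
      apply Finset.sum_congr rfl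
      intro l _
      rw [abs_sub_comm])
    (fun i j l => by
      have := Real.Lp_add_le Finset.univ (fun k => x i k - x j k) (fun k => x j k - x l k) hp
      simpa using this)
    (fun k i j => abs_nonneg _)
    (fun k i j => abs_sub_comm _ _)
    (fun k i j l => abs_sub_le _ _ _)
    (fun i j => (hdp i j).symm)
    (⌈2 * (9 : ℝ) ^ p⌉₊) (Nat.le_ceil _) (Fintype.card ι) Finset.univ Finset.card_univ
  refine ⟨Q, hQ0, ?_, ?_⟩
  · intro k i j
    have := hQ k i (mem_univ i) j (mem_univ j)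
    rw [hdp] at this
    exact this
  · refine hQsum.trans ?_
    rw [Finset.card_univ]
    apply mul_le_mul_of_nonneg_right _ (Nat.cast_nonneg _)
    have := Nat.ceil_lt_add_one (by positivity : (0 : ℝ) ≤ 2 * 9 ^ p)
    linarith

end Vale.Agent.Lib.P249
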