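import Mathlib
import Vale.Agent.Lib.P249.Sampling
import Vale.Agent.Lib.P249.Sensitivity
import Vale.Agent.Lib.P249.Wrap

/-! Assembly of the `n log n` bound: linear total sensitivity + importance sampling. -/

namespace Vale.Agent.Lib.P249

open Finset

theorem wrap2 (p : ℝ) (hp : 1 ≤ p) (D : ℝ) (hD : 1 < D) (n : ℕ) (hn : 2 ≤ n) :
    ∃ d : ℕ, (d : ℝ) ≤ (12 * (6 * 9 ^ p + 2) / ((D - 1) / (D + 1)) ^ 2 + 1) * n * Real.log n ∧
      ∀ (m : ℕ) (X : Finset (PiLp (ENNReal.ofReal p) (fun _ : Fin m => ℝ))), X.card = n →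
        ∃ (f : PiLp (ENNReal.ofReal p) (fun _ : Fin m => ℝ) →
            PiLp (ENNReal.ofReal p) (fun _ : Fin d => ℝ)) (s : ℝ), 0 < s ∧
          ∀ x ∈ X, ∀ x' ∈ X, s * ‖x - x'‖ ≤ ‖f x - f x'‖ ∧ ‖f x - f x'‖ ≤ D * s * ‖x - x'‖ := by
  classical
  have hp0 : 0 < p := by linarith
  set ε : ℝ := (D - 1) / (D + 1) with hε
  have hD1 : 0 < D + 1 := by linarith
  have hε0 : 0 < ε := div_pos (by linarith) hD1
  have hε1 : ε < 1 := by
    rw [hε, div_lt_one hD1]; linarith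
  have hnR : (2 : ℝ) ≤ (n : ℝ) := by exact_mod_cast hn
  have hnpos : (0 : ℝ) < (n : ℝ) := by linarith
  have hlog2 : (0.6931471803 : ℝ) < Real.log 2 := Real.log_two_gt_d9
  have hl2 : Real.log 2 ≤ Real.log n := Real.log_le_log (by norm_num) hnR
  have hlpos : 0 < Real.log n := by linarith
  have h9 : (0 : ℝ) < 9 ^ p := Real.rpow_pos_of_pos (by norm_num) p
  set S : ℝ := (6 * 9 ^ p + 2) * n with hS
  have hSpos : 0 < S := by positivity
  set T : ℕ := ⌊12 * S * Real.log n / ε ^ 2⌋₊ + 1 with hT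
  have hq0 : 0 ≤ 12 * S * Real.log n / ε ^ 2 := by positivity
  have hTlt : 12 * S * Real.log n / ε ^ 2 < (T : ℝ) := by
    rw [hT]; push_cast
    exact Nat.lt_floor_add_one _
  have hTle : (T : ℝ) ≤ 12 * S * Real.log n / ε ^ 2 + 1 := by
    rw [hT]; push_cast
    have := Nat.floor_le hq0
    linarith
  refine ⟨T, ?_, ?_⟩
  · have h1 : (1 : ℝ) ≤ n * Real.log n := by nlinarith
    calc (T : ℝ) ≤ 12 * S * Real.log n / ε ^ 2 + 1 := hTle
      _ ≤ 12 * S * Real.log n / ε ^ 2 + n * Real.log n := by linarith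
      _ = (12 * (6 * 9 ^ p + 2) / ε ^ 2 + 1) * n * Real.log n := by
          rw [hS]; ring
  intro m X hX
  have hcard : Fintype.card X = n := by rw [Fintype.card_coe, hX]
  obtain ⟨Q, hQ0, hQ, hQsum⟩ := exists_sensitivity (ι := X) (κ := Fin m) p hp
    (fun i k => (i : PiLp (ENNReal.ofReal p) (fun _ : Fin m => ℝ)).ofLp k)
  rw [hcard] at hQsum
  obtain ⟨y, hy⟩ := sampling_gen (ι := X) (κ := Fin m) p hp
    (fun i k => (i : PiLp (ENNReal.ofReal p) (fun _ : Fin m => ℝ)).ofLp k) Q hQ0 hQ S hQsum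
    ε hε0 hε1.le T (by rw [hcard]; exact tail_cond n hn S ε hε0 T hTlt hSpos)
  refine ⟨fun v => if h : v ∈ X then WithLp.toLp _ (y ⟨v, h⟩) else 0, (1 - ε) ^ (1 / p), ?_, ?_⟩
  · exact Real.rpow_pos_of_pos (by linarith) _
  intro x hx x' hx'
  simp only [hx, hx', dif_pos]
  have h := hy ⟨x, hx⟩ ⟨x', hx'⟩
  have e1 : ‖x - x'‖ ^ p = ∑ k, |x.ofLp k - x'.ofLp k| ^ p := by
    rw [norm_rpow_eq p hp]
    rfl
  have e2 : ‖(WithLp.toLp (ENNReal.ofReal p) (y ⟨x, hx⟩) : PiLp (ENNReal.ofReal p) (fun _ : Fin T => ℝ))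
      - WithLp.toLp (ENNReal.ofReal p) (y ⟨x', hx'⟩)‖ ^ p
      = ∑ t, |y ⟨x, hx⟩ t - y ⟨x', hx'⟩ t| ^ p := by
    rw [norm_rpow_eq p hp]
    rfl
  simp only [] at h
  rw [← e1, ← e2] at h
  set a := ‖x - x'‖ with ha
  set b := ‖(WithLp.toLp (ENNReal.ofReal p) (y ⟨x, hx⟩) : PiLp (ENNReal.ofReal p) (fun _ : Fin T => ℝ))
      - WithLp.toLp (ENNReal.ofReal p) (y ⟨x', hx'⟩)‖ with hb
  have ha0 : 0 ≤ a := norm_nonneg' p hp _
  have hb0 : 0 ≤ b := norm_nonneg' p hp _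
  have h1ε : 0 < 1 - ε := by linarith
  have hroot : ∀ z : ℝ, 0 ≤ z → (z ^ p) ^ (1 / p) = z := by
    intro z hz
    rw [one_div, Real.rpow_rpow_inv hz hp0.ne']
  constructor
  · have h1 : ((1 - ε) * a ^ p) ^ (1 / p) ≤ (b ^ p) ^ (1 / p) :=
      Real.rpow_le_rpow (by positivity) h.1 (by positivity)
    rw [Real.mul_rpow h1ε.le (by positivity), hroot a ha0, hroot b hb0] at h1
    exact h1
  · have h1 : (b ^ p) ^ (1 / p) ≤ ((1 + ε) * a ^ p) ^ (1 / p) :=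
      Real.rpow_le_rpow (by positivity) h.2 (by positivity)
    rw [Real.mul_rpow (by linarith) (by positivity), hroot a ha0, hroot b hb0] at h1
    refine le_trans h1 ?_
    apply mul_le_mul_of_nonneg_right _ ha0
    have h2 : 1 + ε = D * (1 - ε) := by
      rw [hε]; field_simp; ring
    rw [h2, Real.mul_rpow (by linarith) h1ε.le]
    apply mul_le_mul_of_nonneg_right _ (by positivity)
    have h3 : D ^ (1 / p) ≤ D ^ (1 : ℝ) := by
      apply Real.rpow_le_rpow_of_exponent_le hD.le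
      rw [div_le_one hp0]; exact hp
    rwa [Real.rpow_one] at h3

end Vale.Agent.Lib.P249
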